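import Vale.Agent.P252B.Defs

/-!
Interfaces of the modules.
-/

open Set MeasureTheory

namespace Vale.Agent.P252B

open Vale.Agent.P252 (hessian)

/-- A compactly supported modification of an affine maximal function has no larger affine area. -/
def AreaSpec : Prop :=
  ∀ {n : ℕ} (Ω : Set (V n)) (u v : V n → ℝ), Admissible Ω u → IsAM Ω u → Admissible Ω v →
    ∀ K S : Set (V n), IsCompact K → IsCompact S → K ⊆ S → S ⊆ Ω → (∀ x ∈ Ω, x ∉ K → v x = u x) →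
      (∫ x in S, aff v x) ≤ ∫ x in S, aff u x

/-- Hölder's inequality against the gradient image. -/
def HolderImageSpec : Prop :=
  ∀ {n : ℕ} (Ω : Set (V n)) (u : V n → ℝ), Admissible Ω u →
    ∀ (s : Fin n → ℝ), (∀ i, 0 < s i) → ∀ (S : Set (V n)), IsCompact S → S ⊆ Ω →
    ∀ (T : Set (V n)), MeasurableSet T → T ⊆ S →
      (∫ x in T, aff u x) ≤
        ((∏ i, s i)⁻¹ * (gmeas n).real (grad u s '' T)) ^ ((1 : ℝ) / ((n : ℝ) + 2))
          * (∫ x in S, (1 + ∑ i, |s i * pd u i x|)) ^ (((n : ℝ) + 1) / ((n : ℝ) + 2))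

/-- Total variation of a convex function on a sublevel set. -/
def VariationSpec : Prop :=
  ∀ {n : ℕ} (Ω : Set (V n)) (u : V n → ℝ), Admissible Ω u →
    ∀ (τ : ℝ) (b : Fin n → ℝ), 0 ≤ τ → (∀ i, 0 ≤ b i) → (∀ x ∈ Ω, 0 ≤ u x) →
      IsCompact {x | x ∈ Ω ∧ u x ≤ τ} → {x | x ∈ Ω ∧ u x ≤ τ} ⊆ box b →
      (∀ i, (∫ x in {x | x ∈ Ω ∧ u x ≤ τ}, |pd u i x|) ≤
        2 * τ * ∏ j ∈ Finset.univ.erase i, (2 * b j)) ∧
      (volume {x | x ∈ Ω ∧ u x ≤ τ}).toReal ≤ ∏ j, (2 * b j)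

/-- The gradient measure is finite. -/
def GmeasFiniteSpec : Prop :=
  ∀ n : ℕ, IsFiniteMeasure (gmeas n)

end Vale.Agent.P252B
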