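import Vale.Agent.P252B.Smooth
import Vale.Agent.P252B.Spec

/-!
Affine maximal functions maximise the affine area among compactly supported modifications.
-/

open Set MeasureTheory Matrix Finset

namespace Vale.Agent.P252B

open Vale.Agent.P252 (hessian)

variable {n : ℕ} {Ω : Set (V n)} {u v : V n → ℝ}

lemma pd_eq_zero {f : V n → ℝ} {x : V n} {U : Set (V n)} (hU : IsOpen U) (hx : x ∈ U)
    (h : ∀ y ∈ U, f y = 0) (i : Fin n) : pd f i x = 0 := by
  have e : f =ᶠ[nhds x] fun _ => (0:ℝ) := Filter.eventuallyEq_of_mem (hU.mem_nhds hx) h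
  simp [pd, e.fderiv_eq]

/-- The integral of a derivative of a compactly supported function vanishes. -/
lemma setIntegral_pd_eq_zero (hΩ : IsOpen Ω) {f : V n → ℝ} (hf : ContDiffOn ℝ (↑(⊤ : ℕ∞)) f Ω)
    {K S : Set (V n)} (hK : IsCompact K) (hKS : K ⊆ S) (hS : MeasurableSet S) (hSΩ : S ⊆ Ω)
    (h0 : ∀ x ∈ Ω, x ∉ K → f x = 0) (i : Fin n) : ∫ x in S, pd f i x = 0 := by
  set g := Ω.indicator f with hg
  have hgK : ∀ y, y ∉ K → g y = 0 := fun y hy => by
    by_cases h : y ∈ Ω
    · simp [hg, h, h0 y h hy]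
    · simp [hg, h]
  have hg1 : ContDiff ℝ 1 g := by
    rw [contDiff_iff_contDiffAt]
    intro y
    by_cases h : y ∈ Ω
    · exact (((hf y h).contDiffAt (hΩ.mem_nhds h)).of_le (by simp)).congr_of_eventuallyEq
        (Filter.eventuallyEq_of_mem (hΩ.mem_nhds h) fun z hz => by simp [hg, hz])
    · have hy : y ∉ K := fun hy => h (hSΩ (hKS hy))
      exact (contDiffAt_const (c := (0:ℝ))).congr_of_eventuallyEq
        (Filter.eventuallyEq_of_mem (hK.isClosed.isOpen_compl.mem_nhds hy) fun z hz => hgK z hz)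
  have hsupp : HasCompactSupport g := HasCompactSupport.intro hK hgK
  have hd : ∀ y, y ∉ K → pd g i y = 0 := fun y hy =>
    pd_eq_zero hK.isClosed.isOpen_compl hy (fun z hz => hgK z hz) i
  have e : ∀ x ∈ S, pd f i x = pd g i x := by
    intro x hx
    have : f =ᶠ[nhds x] g :=
      Filter.eventuallyEq_of_mem (hΩ.mem_nhds (hSΩ hx)) fun z hz => by simp [hg, hz]
    simp [pd, this.fderiv_eq]
  rw [setIntegral_congr_fun hS e, setIntegral_eq_integral_of_forall_compl_eq_zero
    fun x hx => hd x fun h => hx (hKS h)]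
  have hc : Continuous fun x => pd g i x :=
    (hg1.continuous_fderiv (by norm_num)).clm_apply continuous_const
  have hi : Integrable (fun x => pd g i x) := hc.integrable_of_hasCompactSupport
    (HasCompactSupport.intro hK hd)
  have h := integral_mul_fderiv_eq_neg_fderiv_mul_of_integrable (μ := (volume : Measure (V n)))
    (f := fun _ => (1:ℝ)) (g := g) (v := EuclideanSpace.single i 1)
    (by simp) (by simp only [one_mul]; exact hi)
    (by simp only [one_mul]; exact hg1.continuous.integrable_of_hasCompactSupport hsupp)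
    (fun x _ => differentiableAt_const _) (fun x _ => (hg1.differentiable (by norm_num)) x)
  simpa [pd] using h

lemma pd_mul (hΩ : IsOpen Ω) {f g : V n → ℝ} (hf : ContDiffOn ℝ (↑(⊤ : ℕ∞)) f Ω)
    (hg : ContDiffOn ℝ (↑(⊤ : ℕ∞)) g Ω) {x : V n} (hx : x ∈ Ω) (i : Fin n) :
    pd (fun y => f y * g y) i x = pd f i x * g x + f x * pd g i x := by
  have df := ((hf.differentiableOn (by norm_num)) x hx).differentiableAt (hΩ.mem_nhds hx)
  have dg := ((hg.differentiableOn (by norm_num)) x hx).differentiableAt (hΩ.mem_nhds hx)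
  simp only [pd, fderiv_fun_mul df dg]
  simp [smul_eq_mul]
  ring

/-- The first variation of the affine area vanishes. -/
lemma first_variation (hu : Admissible Ω u) (ham : IsAM Ω u) {φ : V n → ℝ}
    (hφ : ContDiffOn ℝ (↑(⊤ : ℕ∞)) φ Ω) {K S : Set (V n)} (hK : IsCompact K)
    (hS : IsCompact S) (hKS : K ⊆ S) (hSΩ : S ⊆ Ω) (h0 : ∀ x ∈ Ω, x ∉ K → φ x = 0) :
    ∫ x in S, aff u x * ((hessian u x)⁻¹ * hessian φ x).trace = 0 := by
  obtain ⟨hΩ, -, hus, hpd⟩ := hu
  set w := fun y => (hessian u y).det ^ (-(((n : ℝ) + 1) / ((n : ℝ) + 2))) with hw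
  have hdet : ContDiffOn ℝ (↑(⊤ : ℕ∞)) (fun y => (hessian u y).det) Ω :=
    contDiffOn_det fun i j => contDiffOn_hessian hΩ hus i j
  have hws : ContDiffOn ℝ (↑(⊤ : ℕ∞)) w Ω :=
    hdet.rpow_const_of_ne fun x hx => (hpd x hx).det_pos.ne'
  set U := fun i j y => (hessian u y).adjugate i j with hU
  have hUs : ∀ i j, ContDiffOn ℝ (↑(⊤ : ℕ∞)) (U i j) Ω := contDiffOn_adj hΩ hus
  have hsymU : ∀ x ∈ Ω, ∀ i j, U i j x = U j i x := by
    intro x hx i j
    have : (hessian u x)ᵀ = hessian u x := by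
      simpa [Matrix.conjTranspose_eq_transpose_of_trivial] using (hpd x hx).isHermitian.eq
    conv_lhs => rw [hU]; simp only; rw [← this, ← Matrix.adjugate_transpose]
    rfl
  set Y := fun i j y => w y * (U i j y * pd φ j y) with hY
  set Z := fun i j y => φ y * (U i j y * pd w i y) with hZ
  have hYs : ∀ i j, ContDiffOn ℝ (↑(⊤ : ℕ∞)) (Y i j) Ω := fun i j =>
    hws.mul ((hUs i j).mul (contDiffOn_pd hΩ hφ j))
  have hZs : ∀ i j, ContDiffOn ℝ (↑(⊤ : ℕ∞)) (Z i j) Ω := fun i j =>
    hφ.mul ((hUs i j).mul (contDiffOn_pd hΩ hws i))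
  have hφd : ∀ j, ∀ x ∈ Ω, x ∉ K → pd φ j x = 0 := fun j x hx hxK =>
    pd_eq_zero (hΩ.inter hK.isClosed.isOpen_compl) ⟨hx, hxK⟩ (fun y hy => h0 y hy.1 hy.2) j
  have hY0 : ∀ i j, ∫ x in S, pd (Y i j) i x = 0 := fun i j =>
    setIntegral_pd_eq_zero hΩ (hYs i j) hK hKS hS.measurableSet hSΩ
      (fun x hx hxK => by simp [hY, hφd j x hx hxK]) i
  have hZ0 : ∀ i j, ∫ x in S, pd (Z i j) j x = 0 := fun i j =>
    setIntegral_pd_eq_zero hΩ (hZs i j) hK hKS hS.measurableSet hSΩ
      (fun x hx hxK => by simp [hZ, h0 x hx hxK]) j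
  have int : ∀ {f : V n → ℝ}, ContDiffOn ℝ (↑(⊤ : ℕ∞)) f Ω → IntegrableOn f S volume := fun hf =>
    (hf.continuousOn.mono hSΩ).integrableOn_compact hS
  have key : ∀ x ∈ S, aff u x * ((hessian u x)⁻¹ * hessian φ x).trace =
      ∑ i, ∑ j, (pd (Y i j) i x - pd (Z i j) j x) := by
    intro x hxS
    have hx := hSΩ hxS
    have hd := (hpd x hx).det_pos
    have hF : aff u x = w x * (hessian u x).det := by
      rw [hw, aff]; simp only
      rw [← Real.rpow_add_one hd.ne']
      congr 1
      field_simp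
      ring
    have hadj : (hessian u x).adjugate = (hessian u x).det • (hessian u x)⁻¹ := by
      rw [Matrix.inv_def, smul_smul, Ring.mul_inverse_cancel _ (isUnit_iff_ne_zero.2 hd.ne'),
        one_smul]
    have hAM : ∑ i, ∑ j, U i j x * pd (pd w i) j x = 0 := by
      have h := ham x hx
      rw [Finset.sum_comm]
      refine Eq.trans ?_ h
      refine Finset.sum_congr rfl fun i _ => Finset.sum_congr rfl fun j _ => ?_
      rw [hsymU x hx, hessian_eq hΩ hws hx i j]
      congr 1
      simp [hU, hadj]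
    have hp1 : ∀ j, ∑ i, pd (U i j) i x = 0 := piola hΩ hus hpd hx
    have hp2 : ∀ i, ∑ j, pd (U i j) j x = 0 := by
      intro i
      refine Eq.trans (Finset.sum_congr rfl fun j _ => ?_) (hp1 i)
      have e : U i j =ᶠ[nhds x] U j i :=
        Filter.eventuallyEq_of_mem (hΩ.mem_nhds hx) fun y hy => hsymU y hy i j
      simp [pd, e.fderiv_eq]
    have t1 : ∀ i j, pd (Y i j) i x = pd w i x * (U i j x * pd φ j x)
        + w x * (pd (U i j) i x * pd φ j x + U i j x * pd (pd φ j) i x) := fun i j => by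
      simp only [hY]
      rw [pd_mul hΩ hws ((hUs i j).mul (contDiffOn_pd hΩ hφ j)) hx,
        pd_mul hΩ (hUs i j) (contDiffOn_pd hΩ hφ j) hx]
    have t2 : ∀ i j, pd (Z i j) j x = pd φ j x * (U i j x * pd w i x)
        + φ x * (pd (U i j) j x * pd w i x + U i j x * pd (pd w i) j x) := fun i j => by
      simp only [hZ]
      rw [pd_mul hΩ hφ ((hUs i j).mul (contDiffOn_pd hΩ hws i)) hx,
        pd_mul hΩ (hUs i j) (contDiffOn_pd hΩ hws i) hx]
    have z1 : ∑ i, ∑ j, w x * (pd (U i j) i x * pd φ j x) = 0 := by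
      rw [Finset.sum_comm]
      simp only [← Finset.mul_sum, ← Finset.sum_mul, hp1, zero_mul, mul_zero, Finset.sum_const_zero]
    have z2 : ∑ i, ∑ j, φ x * (pd (U i j) j x * pd w i x) = 0 := by
      simp only [← Finset.mul_sum, ← Finset.sum_mul, hp2, zero_mul, mul_zero, Finset.sum_const_zero]
    have z3 : ∑ i, ∑ j, φ x * (U i j x * pd (pd w i) j x) = 0 := by
      simp only [← Finset.mul_sum, hAM, mul_zero]
    have e : ∀ i j, pd (Y i j) i x - pd (Z i j) j x = w x * (U i j x * pd (pd φ j) i x)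
        + (w x * (pd (U i j) i x * pd φ j x) - φ x * (pd (U i j) j x * pd w i x)
          - φ x * (U i j x * pd (pd w i) j x)) := fun i j => by rw [t1, t2]; ring
    simp only [e, Finset.sum_add_distrib, Finset.sum_sub_distrib, z1, z2, z3, sub_zero, add_zero]
    rw [Matrix.trace, hF, mul_assoc]
    simp only [Matrix.diag, Matrix.mul_apply, Finset.mul_sum]
    rw [Finset.sum_comm]
    refine Finset.sum_congr rfl fun i _ => Finset.sum_congr rfl fun j _ => ?_
    rw [hessian_eq hΩ hφ hx i j, hsymU x hx i j]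
    simp only [hU, hadj, Matrix.smul_apply, smul_eq_mul]
    ring
  rw [setIntegral_congr_fun hS.measurableSet key]
  have hi : ∀ i j, IntegrableOn (fun x => pd (Y i j) i x - pd (Z i j) j x) S volume := fun i j =>
    (int (contDiffOn_pd hΩ (hYs i j) i)).sub (int (contDiffOn_pd hΩ (hZs i j) j))
  rw [integral_finsetSum _ fun i _ => MeasureTheory.integrable_finsetSum _ fun j _ => hi i j]
  refine Finset.sum_eq_zero fun i _ => ?_
  rw [integral_finsetSum _ fun j _ => hi i j]
  refine Finset.sum_eq_zero fun j _ => ?_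
  rw [integral_sub (int (contDiffOn_pd hΩ (hYs i j) i)) (int (contDiffOn_pd hΩ (hZs i j) j)),
    hY0, hZ0, sub_zero]

lemma contDiffOn_aff (hu : Admissible Ω u) : ContDiffOn ℝ (↑(⊤ : ℕ∞)) (aff u) Ω :=
  (contDiffOn_det fun i j => contDiffOn_hessian hu.1 hu.2.2.1 i j).rpow_const_of_ne
    fun x hx => (hu.2.2.2 x hx).det_pos.ne'

theorem area : AreaSpec := by
  intro n Ω u v hu ham hv K S hK hS hKS hSΩ hvu
  obtain ⟨hΩ, -, hus, hpd⟩ := id hu
  have hvs := hv.2.2.1
  have hφ : ContDiffOn ℝ (↑(⊤ : ℕ∞)) (fun x => v x - u x) Ω := hvs.sub hus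
  set T := fun x => aff u x * ((hessian u x)⁻¹ * hessian (fun x => v x - u x) x).trace with hT
  have h0 : ∫ x in S, T x = 0 :=
    first_variation hu ham hφ hK hS hKS hSΩ fun x hx hxK => by simp [hvu x hx hxK]
  have hle : ∀ x ∈ S, aff v x ≤ aff u x + T x / ((n : ℝ) + 2) := by
    intro x hxS
    have hx := hSΩ hxS
    refine (det_rpow_le (hpd x hx) (hv.2.2.2 x hx)).trans (le_of_eq ?_)
    have e : hessian v x - hessian u x = hessian (fun x => v x - u x) x := by
      ext i j
      rw [Matrix.sub_apply, hessian_eq hΩ hvs hx, hessian_eq hΩ hus hx, hessian_eq hΩ hφ hx]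
      have e1 : pd (fun x => v x - u x) j =ᶠ[nhds x] fun y => pd v j y - pd u j y :=
        Filter.eventuallyEq_of_mem (hΩ.mem_nhds hx) fun y hy => by
          have a1 := ((hvs.differentiableOn (by norm_num)) y hy).differentiableAt (hΩ.mem_nhds hy)
          have a2 := ((hus.differentiableOn (by norm_num)) y hy).differentiableAt (hΩ.mem_nhds hy)
          simp [pd, fderiv_fun_sub a1 a2]
      show fderiv ℝ (pd v j) x _ - fderiv ℝ (pd u j) x _ = fderiv ℝ (pd (fun x => v x - u x) j) x _
      rw [e1.fderiv_eq]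
      have b1 := (((contDiffOn_pd hΩ hvs j).differentiableOn (by norm_num)) x hx).differentiableAt
        (hΩ.mem_nhds hx)
      have b2 := (((contDiffOn_pd hΩ hus j).differentiableOn (by norm_num)) x hx).differentiableAt
        (hΩ.mem_nhds hx)
      simp [fderiv_fun_sub b1 b2]
    rw [hT]
    simp only [aff, ← e]
    ring
  have hvi : IntegrableOn (aff v) S volume :=
    (((contDiffOn_aff hv).continuousOn).mono hSΩ).integrableOn_compact hS
  have hui : IntegrableOn (aff u) S volume :=
    (((contDiffOn_aff hu).continuousOn).mono hSΩ).integrableOn_compact hS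
  have hTi : IntegrableOn T S volume := by
    refine ContinuousOn.integrableOn_compact hS (ContinuousOn.mul
      ((contDiffOn_aff hu).continuousOn.mono hSΩ) ?_)
    have : ∀ x ∈ S, ((hessian u x)⁻¹ * hessian (fun x => v x - u x) x).trace =
        ∑ i, ∑ j, ((hessian u x).det)⁻¹ * (hessian u x).adjugate i j
          * hessian (fun x => v x - u x) x j i := by
      intro x _
      simp [Matrix.trace, Matrix.mul_apply, Matrix.inv_def, Ring.inverse_eq_inv', mul_assoc,
        Finset.mul_sum]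
    refine ContinuousOn.congr ?_ this
    refine ContinuousOn.mono ?_ hSΩ
    exact continuousOn_finsetSum _ fun i _ => continuousOn_finsetSum _ fun j _ =>
      (((contDiffOn_det fun a b => contDiffOn_hessian hΩ hus a b).continuousOn.inv₀
        fun x hx => (hpd x hx).det_pos.ne').mul (contDiffOn_adj hΩ hus i j).continuousOn).mul
        (contDiffOn_hessian hΩ hφ j i).continuousOn
  calc (∫ x in S, aff v x) ≤ ∫ x in S, (aff u x + T x / ((n : ℝ) + 2)) :=
        setIntegral_mono_on hvi (hui.add (hTi.div_const _)) hS.measurableSet hle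
    _ = ∫ x in S, aff u x := by
        rw [integral_add hui (hTi.div_const _), integral_div, h0]
        simp

end Vale.Agent.P252B
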