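import Vale.Agent.P252B.Competitor

/-!
The upper bound for the affine area of the sublevel sets, and the contradiction.
-/

open Set Finset Metric MeasureTheory Filter Topology

namespace Vale.Agent.P252B

variable {n : ℕ}

namespace Slab

variable (P : Slab n)

/-- The scaling of the gradient at level `t`. -/
noncomputable def scale (t : ℝ) (i : Fin n) : ℝ := if i ∈ P.I then 1 else t⁻¹

lemma upper (hI : HolderImageSpec) (hV : VariationSpec) :
    ∃ U > 0, ∀ t : ℝ, 1 ≤ t → ∀ T, MeasurableSet T → T ⊆ P.sub t →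
      (∫ x in T, aff P.u x) ≤ U * t ^ expo n P.I.card *
        (gmeas n).real (grad P.u (P.scale t) '' T) ^ ((1 : ℝ) / ((n : ℝ) + 2)) := by
  obtain ⟨B, hB, hbox⟩ := P.exists_box
  set J := (2 * B) ^ n * (1 + n / B) with hJ
  have hJ0 : 0 < J := by positivity
  refine ⟨J ^ (((n : ℝ) + 1) / ((n : ℝ) + 2)), by positivity, fun t ht T hT hTS => ?_⟩
  have ht0 : 0 < t := by linarith
  have hS := P.isCompact_sub t
  obtain ⟨hvar, hvol⟩ := hV P.Ω P.u P.adm t (P.width B t) ht0.le
    (fun i => by unfold width; split_ifs <;> positivity) (fun x hx => P.nonneg hx) hS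
    (hbox t ht).1
  set s := P.scale t with hs
  have hs0 : ∀ i, 0 < s i := fun i => by simp only [hs, scale]; split_ifs <;> positivity
  have hpi : ∏ i, 2 * P.width B t i = (2 * B) ^ n * t ^ P.I.card := by
    have e : ∏ i, 2 * P.width B t i = ∏ i, if i ∈ P.I then 2 * B * t else 2 * B :=
      Finset.prod_congr rfl fun i _ => by unfold width; split_ifs <;> ring
    have hk : P.I.card ≤ n := by simpa using Finset.card_le_univ P.I
    rw [e, prod_scaled, ← pow_add, Nat.add_sub_cancel' hk]
  have hint : ∀ i, IntegrableOn (fun x => |s i * pd P.u i x|) (P.sub t) volume := fun i => by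
    refine ContinuousOn.integrableOn_compact hS ?_
    exact ((continuousOn_const.mul ((P.continuousOn_fderiv.clm_apply continuousOn_const).mono
      fun x hx => hx.1))).abs
  have hJb : (∫ x in P.sub t, (1 + ∑ i, |s i * pd P.u i x|)) ≤ J * t ^ P.I.card := by
    rw [integral_add (integrableOn_const (C := (1:ℝ)) hS.measure_lt_top.ne)
      (MeasureTheory.integrable_finsetSum _ fun i _ => hint i),
      setIntegral_const, integral_finsetSum _ fun i _ => hint i, smul_eq_mul, mul_one]
    have h1 : ∀ i, (∫ x in P.sub t, |s i * pd P.u i x|) ≤ (2 * B) ^ n * t ^ P.I.card / B := by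
      intro i
      simp only [abs_mul, abs_of_pos (hs0 i), integral_const_mul]
      refine (mul_le_mul_of_nonneg_left (hvar i) (hs0 i).le).trans (le_of_eq ?_)
      rw [← hpi, ← Finset.mul_prod_erase Finset.univ (fun j => 2 * P.width B t j) (Finset.mem_univ i)]
      simp only [hs, scale, width]
      split_ifs <;> field_simp
    have h2 := Finset.sum_le_card_nsmul (Finset.univ : Finset (Fin n)) _ _ fun i _ => h1 i
    simp only [Finset.card_univ, Fintype.card_fin, nsmul_eq_mul] at h2
    rw [hpi] at hvol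
    have e : J * t ^ P.I.card
        = (2 * B) ^ n * t ^ P.I.card + n * ((2 * B) ^ n * t ^ P.I.card / B) := by
      rw [hJ]; field_simp
    rw [e]
    exact add_le_add hvol h2
  have h := hI P.Ω P.u P.adm s hs0 (P.sub t) hS (fun x hx => hx.1) T hT hTS
  refine h.trans ?_
  have hk : P.I.card ≤ n := by simpa using Finset.card_le_univ P.I
  have hpos : (0 : ℝ) ≤ ∫ x in P.sub t, (1 + ∑ i, |s i * pd P.u i x|) :=
    setIntegral_nonneg hS.measurableSet fun x _ => by positivity
  have hprod : (∏ i, s i)⁻¹ = t ^ (n - P.I.card) := by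
    have := prod_scaled P.I 1 t⁻¹ 1
    simp only [one_mul, one_pow, mul_one] at this
    simp only [hs, scale]
    rw [this, inv_pow, inv_inv]
  rw [hprod, Real.mul_rpow (by positivity) measureReal_nonneg]
  refine (mul_le_mul_of_nonneg_left
    (Real.rpow_le_rpow hpos hJb (by positivity)) (by positivity)).trans (le_of_eq ?_)
  rw [Real.mul_rpow hJ0.le (by positivity), ← Real.rpow_natCast, ← Real.rpow_natCast,
    ← Real.rpow_mul ht0.le, ← Real.rpow_mul ht0.le]
  have e : t ^ (((n - P.I.card : ℕ) : ℝ) * (1 / ((n : ℝ) + 2))) *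
      t ^ ((P.I.card : ℝ) * (((n : ℝ) + 1) / ((n : ℝ) + 2))) = t ^ expo n P.I.card := by
    rw [← Real.rpow_add ht0, Nat.cast_sub hk, expo]
    congr 1
    field_simp
    ring
  rw [← e]
  ring

/-- Upper parts of sublevel sets have gradient images of small measure. -/
lemma image_small (hF : GmeasFiniteSpec) {δ ε : ℝ} (hδ : 0 < δ) (hε : 0 < ε) :
    ∃ T₀ : ℝ, 1 ≤ T₀ ∧ ∀ t, T₀ ≤ t →
      (gmeas n).real (grad P.u (P.scale t) '' (P.sub t \ P.sub (δ * t))) ≤ ε := by
  have := hF n
  have hball : Antitone fun m : ℕ => (closedBall (0 : V n) m)ᶜ := fun a b hab =>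
    compl_subset_compl.2 (closedBall_subset_closedBall (by exact_mod_cast hab))
  have t1 : Tendsto (fun m : ℕ => gmeas n (closedBall (0 : V n) m)ᶜ) atTop (𝓝 0) := by
    have h := tendsto_measure_iInter_atTop (μ := gmeas n)
      (fun m => (measurableSet_closedBall.compl).nullMeasurableSet) hball ⟨0, measure_ne_top _ _⟩
    rwa [show (⋂ m : ℕ, (closedBall (0 : V n) m)ᶜ) = ∅ from ?_, measure_empty] at h
    rw [← compl_iUnion, compl_empty_iff]
    exact iUnion_closedBall_nat 0
  obtain ⟨M, hM⟩ := (t1.eventually (gt_mem_nhds (ENNReal.ofReal_pos.2 (half_pos hε)))).exists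
  set A : ℕ → Set (V n) := fun m => closure P.slopes \ P.attained m with hA
  have hAm : ∀ m, MeasurableSet (A m) := fun m =>
    isClosed_closure.measurableSet.diff (P.isClosed_attained m).measurableSet
  have hAa : Antitone A := fun a b hab => sdiff_subset_sdiff_right fun q ⟨η, hη, h⟩ =>
    ⟨η, ⟨hη.1, closedBall_subset_closedBall (by exact_mod_cast hab) hη.2⟩, h⟩
  have t2 : Tendsto (fun m => gmeas n (A m)) atTop (𝓝 0) := by
    have h := tendsto_measure_iInter_atTop (μ := gmeas n)
      (fun m => (hAm m).nullMeasurableSet) hAa ⟨0, measure_ne_top _ _⟩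
    have h0 : gmeas n (⋂ m, A m) = 0 := by
      refine measure_mono_null (t := frontier P.slopes) ?_
        (withDensity_absolutelyContinuous _ _ (P.convex_slopes.addHaar_frontier volume))
      intro q hq
      refine ⟨(Set.mem_iInter.1 hq 0).1, fun hi => ?_⟩
      obtain ⟨m, hm⟩ := Set.mem_iUnion.1 (P.interior_slopes_subset hi)
      exact (Set.mem_iInter.1 hq m).2 hm
    rwa [h0] at h
  obtain ⟨Λ, hΛ⟩ := (t2.eventually (gt_mem_nhds (ENNReal.ofReal_pos.2 (half_pos hε)))).exists
  obtain ⟨r, hr, R, hR0, hgap⟩ := P.gap (Λ : ℝ)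
  set κ := (n : ℝ) * M / r + 1 with hκ
  have hκ0 : 0 < κ := by positivity
  set ρ := δ / (2 * κ * (n * M + 1)) with hρ
  have hρ0 : 0 < ρ := by positivity
  set off := fun x : V n => x - proj P.I (x - P.x₀) with hoff
  have hbo : Bornology.IsBounded (off '' P.Ω) := by
    refine (isBounded_closedBall (x := P.x₀) (r := n * P.C)).subset ?_
    rintro _ ⟨x, hx, rfl⟩
    rw [mem_closedBall, dist_eq_norm, vec_eq_sum (off x - P.x₀)]
    refine (norm_sum_le _ _).trans ((Finset.sum_le_card_nsmul _ _ P.C fun i _ => ?_).trans (by simp))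
    rw [norm_smul, EuclideanSpace.single, PiLp.norm_single, norm_one, mul_one, Real.norm_eq_abs]
    simp only [hoff, PiLp.sub_apply, proj_apply]
    split_ifs with hi
    · simpa using P.C_pos.le
    · simpa using P.bdd x hx i hi
  obtain ⟨F, hFs, hFf, hFc⟩ :=
    finite_approx_of_totallyBounded ((Bornology.IsBounded.isCompact_closure hbo).totallyBounded.subset subset_closure) ρ hρ0
  obtain ⟨G, hGs, hGf, rfl⟩ := Set.exists_subset_image_finite_and.1 ⟨F, hFs, hFf, rfl⟩
  obtain ⟨Cz, hCz⟩ := (hGf.image fun z => P.u z + n * M * ‖z - P.x₀‖).bddAbove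
  refine ⟨max 1 (2 * κ * (R + |Cz|) / δ + 1), le_max_left _ _, fun t ht => ?_⟩
  have ht0 : 0 < t := lt_of_lt_of_le one_pos ((le_max_left _ _).trans ht)
  have htb : 2 * κ * (R + |Cz|) < δ * t := by
    have := (le_max_right 1 _).trans ht
    rw [← div_lt_iff₀' hδ]
    linarith
  have hsub : grad P.u (P.scale t) '' (P.sub t \ P.sub (δ * t)) ⊆
      (closedBall (0 : V n) M)ᶜ ∪ A Λ := by
    rintro _ ⟨x, ⟨hx, hxδ⟩, rfl⟩
    set q := grad P.u (P.scale t) x with hq
    have hqI : ∀ i ∈ P.I, q i = pd P.u i x := fun i hi => by simp [hq, grad, scale, hi]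
    have hxu : δ * t < P.u x := not_le.1 fun h => hxδ ⟨hx.1, h⟩
    by_cases hqM : q ∈ closedBall (0 : V n) M
    swap
    · exact Or.inl hqM
    refine Or.inr ⟨subset_closure (P.grad_mem_slopes hx.1 q hqI), ?_⟩
    rintro ⟨η, hη, hqη⟩
    have hqn : ∀ i, |q i| ≤ M := fun i =>
      (PiLp.norm_apply_le q i).trans (mem_closedBall_zero_iff.1 hqM)
    set y := proj P.I (x - P.x₀) with hy
    set L := ∑ i, y i * q i with hL
    have hLη : fderiv ℝ P.u (P.x₀ + η) y = L := by
      rw [fderiv_apply_sum]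
      refine Finset.sum_congr rfl fun i _ => ?_
      by_cases hi : i ∈ P.I
      · rw [hqη i hi]
      · simp [hy, proj_apply, hi]
    have hg := hgap η hη x hx.1
    rw [← hy, hLη] at hg
    have hLy : L ≤ n * M * ‖y‖ := by
      refine (Finset.sum_le_card_nsmul _ _ (M * ‖y‖) fun i _ => ?_).trans (le_of_eq ?_)
      · rw [mul_comm (M : ℝ)]
        exact (le_abs_self _).trans ((abs_mul _ _).trans_le
          (mul_le_mul (PiLp.norm_apply_le y i) (hqn i) (abs_nonneg _) (norm_nonneg _)))
      · simp [mul_assoc]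
    obtain ⟨_, ⟨z, hzG, rfl⟩, hzd⟩ :=
      Set.mem_iUnion₂.1 (hFc (Set.mem_image_of_mem off hx.1))
    have hzΩ := hGs hzG
    have hterm : ∀ i, -(y i * q i) - (M * ‖z - P.x₀‖ + ρ * (t * M)) ≤
        (z - x) i * pd P.u i x := by
      intro i
      by_cases hi : i ∈ P.I
      · have hyi : y i = x i - P.x₀ i := by simp [hy, proj_apply, hi]
        have h1 : |(z - P.x₀) i * q i| ≤ ‖z - P.x₀‖ * M :=
          (abs_mul _ _).trans_le (mul_le_mul (PiLp.norm_apply_le (z - P.x₀) i) (hqn i)
            (abs_nonneg _) (norm_nonneg _))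
        have h2 : (0:ℝ) ≤ ρ * (t * M) := by positivity
        rw [← hqI i hi]
        have h3 : (z - x) i * q i = (z - P.x₀) i * q i - y i * q i := by
          simp only [PiLp.sub_apply, hyi]; ring
        rw [h3]
        linarith [(abs_le.1 h1).1]
      · have hyi : y i = 0 := by simp [hy, proj_apply, hi]
        have hp : pd P.u i x = t * q i := by
          simp [hq, grad, scale, hi]; field_simp
        have hd : |(z - x) i| ≤ ρ := by
          have h := PiLp.norm_apply_le (off z - off x) i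
          have e : (off z - off x) i = (z - x) i := by
            simp [hoff, proj_apply, hi]
          rw [e] at h
          rw [mem_ball, dist_eq_norm, norm_sub_rev] at hzd
          exact h.trans hzd.le
        have h1 : |(z - x) i * (t * q i)| ≤ ρ * (t * M) := by
          rw [abs_mul, abs_mul, abs_of_pos ht0]
          exact mul_le_mul hd (mul_le_mul_of_nonneg_left (hqn i) ht0.le) (by positivity) hρ0.le
        have h2 : (0:ℝ) ≤ M * ‖z - P.x₀‖ := by positivity
        rw [hyi, hp]
        linarith [(abs_le.1 h1).1]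
    have hsum := Finset.sum_le_sum (s := Finset.univ) fun i _ => hterm i
    simp only [Finset.sum_sub_distrib, Finset.sum_neg_distrib, Finset.sum_const, Finset.card_univ,
      Fintype.card_fin, nsmul_eq_mul, ← hL] at hsum
    have ht' := tangent_le P.adm hx.1 hzΩ
    rw [fderiv_apply_sum] at ht'
    have hCz' : P.u z + n * M * ‖z - P.x₀‖ ≤ |Cz| :=
      (hCz ⟨z, hzG, rfl⟩).trans (le_abs_self _)
    have hux : P.u x ≤ |Cz| + L + n * (ρ * (t * M)) := by nlinarith
    have hry : r * ‖y‖ ≤ R + |Cz| + n * (ρ * (t * M)) := by linarith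
    have hmain : P.u x ≤ κ * (R + |Cz| + n * (ρ * (t * M))) := by
      have h1 : (n : ℝ) * M * ‖y‖ ≤ n * M / r * (R + |Cz| + n * (ρ * (t * M))) := by
        rw [show (n : ℝ) * M * ‖y‖ = n * M / r * (r * ‖y‖) by field_simp]
        exact mul_le_mul_of_nonneg_left hry (by positivity)
      rw [hκ]
      nlinarith
    have hsmall : κ * ((n : ℝ) * (ρ * (t * M))) ≤ δ * t / 2 := by
      have e : κ * ((n : ℝ) * (ρ * (t * M))) = δ * t / 2 * ((n * M : ℝ) / (n * M + 1)) := by
        rw [hρ]; field_simp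
      rw [e]
      exact mul_le_of_le_one_right (by positivity) ((div_le_one (by positivity)).2 (by linarith))
    nlinarith
  calc (gmeas n).real (grad P.u (P.scale t) '' (P.sub t \ P.sub (δ * t)))
      ≤ (gmeas n).real ((closedBall (0 : V n) M)ᶜ ∪ A Λ) := measureReal_mono hsub
    _ ≤ (gmeas n).real (closedBall (0 : V n) M)ᶜ + (gmeas n).real (A Λ) := measureReal_union_le _ _
    _ ≤ ε / 2 + ε / 2 := add_le_add (ENNReal.toReal_le_of_le_ofReal (by positivity) hM.le)
        (ENNReal.toReal_le_of_le_ofReal (by positivity) hΛ.le)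
    _ = ε := by ring

include P in
theorem impossible (hI : HolderImageSpec) (hV : VariationSpec) (hF : GmeasFiniteSpec)
    (hn : 1 ≤ n) : False := by
  have := hF n
  obtain ⟨c, hc, T₁, hlow⟩ := P.lower
  obtain ⟨U, hU, hup⟩ := P.upper hI hV
  set e := (1 : ℝ) / ((n : ℝ) + 2) with he
  set E := expo n P.I.card with hE
  have hE0 : 0 < E := by
    have : (0 : ℝ) < n := by exact_mod_cast hn
    rw [hE, expo]; positivity
  have he0 : 0 < e := by positivity
  set μ₀ := (gmeas n).real univ + 1 with hμ₀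
  have hμ0 : 0 < μ₀ := by positivity
  set δ := min 1 ((c / (4 * U * μ₀ ^ e)) ^ E⁻¹) with hδ
  have hδ0 : 0 < δ := lt_min one_pos (by positivity)
  have hδE : U * μ₀ ^ e * δ ^ E ≤ c / 4 := by
    have h := Real.rpow_le_rpow hδ0.le (min_le_right 1 ((c / (4 * U * μ₀ ^ e)) ^ E⁻¹)) hE0.le
    rw [Real.rpow_inv_rpow (by positivity) hE0.ne'] at h
    have := mul_le_mul_of_nonneg_left h (show 0 ≤ U * μ₀ ^ e by positivity)
    refine this.trans (le_of_eq ?_)
    field_simp
  set ε := (c / (4 * U)) ^ e⁻¹ with hε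
  have hε0 : 0 < ε := by positivity
  obtain ⟨T₀, hT₀, hsmall⟩ := P.image_small hF hδ0 hε0
  set t := max (max T₁ T₀) δ⁻¹ with ht
  have ht1 : 1 ≤ t := hT₀.trans ((le_max_right _ _).trans (le_max_left _ _))
  have ht0 : 0 < t := by linarith
  have hδt : 1 ≤ δ * t := by
    have : δ⁻¹ ≤ t := le_max_right _ _
    rwa [inv_le_iff_one_le_mul₀ hδ0, mul_comm] at this
  have hm1 := (P.isCompact_sub (δ * t)).measurableSet
  have hm := (P.isCompact_sub t).measurableSet
  have hle : P.sub (δ * t) ⊆ P.sub t := fun x hx =>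
    ⟨hx.1, hx.2.trans (mul_le_of_le_one_left ht0.le (min_le_left _ _))⟩
  have hint : IntegrableOn (aff P.u) (P.sub t) volume :=
    ((contDiffOn_aff P.adm).continuousOn.mono fun x hx => hx.1).integrableOn_compact
      (P.isCompact_sub t)
  have h1 := hup (δ * t) hδt (P.sub (δ * t)) hm1 subset_rfl
  have h2 := hup t ht1 (P.sub t \ P.sub (δ * t)) (hm.diff hm1) sdiff_subset
  have h3 : (gmeas n).real (grad P.u (P.scale (δ * t)) '' P.sub (δ * t)) ^ e ≤ μ₀ ^ e :=
    Real.rpow_le_rpow measureReal_nonneg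
      ((measureReal_mono (subset_univ _)).trans (by linarith)) he0.le
  have h4 : (gmeas n).real (grad P.u (P.scale t) '' (P.sub t \ P.sub (δ * t))) ^ e ≤ c / (4 * U) :=
    (Real.rpow_le_rpow measureReal_nonneg
      (hsmall t ((le_max_right _ _).trans (le_max_left _ _))) he0.le).trans
      (le_of_eq (Real.rpow_inv_rpow (by positivity) he0.ne'))
  have h0 := hlow t ((le_max_left _ _).trans (le_max_left _ _))
  have hsplit : (∫ x in P.sub t, aff P.u x) = (∫ x in P.sub (δ * t), aff P.u x)
      + ∫ x in P.sub t \ P.sub (δ * t), aff P.u x := by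
    rw [setIntegral_sdiff hm1 hint hle]; ring
  have htE : 0 < t ^ E := by positivity
  have a1 : (∫ x in P.sub (δ * t), aff P.u x) ≤ c / 4 * t ^ E := by
    refine h1.trans ((mul_le_mul_of_nonneg_left h3 (by positivity)).trans ?_)
    rw [Real.mul_rpow hδ0.le ht0.le]
    calc U * (δ ^ E * t ^ E) * μ₀ ^ e = (U * μ₀ ^ e * δ ^ E) * t ^ E := by ring
      _ ≤ c / 4 * t ^ E := by gcongr
  have a2 : (∫ x in P.sub t \ P.sub (δ * t), aff P.u x) ≤ c / 4 * t ^ E := by
    refine h2.trans ((mul_le_mul_of_nonneg_left h4 (by positivity)).trans (le_of_eq ?_))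
    field_simp
  nlinarith [mul_pos hc htE]

end Slab

end Vale.Agent.P252B
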