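import Vale.Agent.P252B.Slice
import Vale.Agent.P252B.Area

/-!
The competitor and the lower bound for the affine area of the sublevel sets.
-/

open Set Finset Metric MeasureTheory Matrix

namespace Vale.Agent.P252B

open Vale.Agent.P252 (hessian)

variable {n : ℕ}

/-- The exponent of the natural size of the affine area. -/
noncomputable def expo (n k : ℕ) : ℝ := ((k : ℝ) * n + n) / ((n : ℝ) + 2)

/-- A smooth convex function vanishing on `(-∞, 0]`, affine on `[1, ∞)`. -/
noncomputable def ramp (r : ℝ) : ℝ := ∫ s in (0:ℝ)..r, Real.smoothTransition s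

lemma hasDerivAt_ramp (r : ℝ) : HasDerivAt ramp (Real.smoothTransition r) r :=
  Real.smoothTransition.continuous.integral_hasStrictDerivAt 0 r |>.hasDerivAt

lemma contDiff_ramp : ContDiff ℝ (↑(⊤ : ℕ∞)) ramp := by
  refine contDiff_infty_iff_deriv.2 ⟨fun r => (hasDerivAt_ramp r).differentiableAt, ?_⟩
  rw [show deriv ramp = Real.smoothTransition from funext fun r => (hasDerivAt_ramp r).deriv]
  exact Real.smoothTransition.contDiff

lemma ramp_of_nonpos {r : ℝ} (h : r ≤ 0) : ramp r = 0 := by
  have hE : EqOn Real.smoothTransition (fun _ => (0:ℝ)) (uIcc 0 r) := fun s hs => by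
    rw [uIcc_of_ge h] at hs
    exact Real.smoothTransition.zero_of_nonpos hs.2
  rw [ramp, intervalIntegral.integral_congr hE]
  simp

lemma hessian_add_comp {W : Set (V n)} (hW : IsOpen W) {u g : V n → ℝ}
    (hu : ContDiffOn ℝ (↑(⊤ : ℕ∞)) u W) (hg : ContDiffOn ℝ (↑(⊤ : ℕ∞)) g W) {x : V n}
    (hx : x ∈ W) : hessian (fun y => u y + ramp (g y)) x = hessian u x
      + Real.smoothTransition (g x) • hessian g x
      + deriv Real.smoothTransition (g x) •
        vecMulVec (fun i => pd g i x) (fun j => pd g j x) := by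
  ext i j
  have hs : ContDiffOn ℝ (↑(⊤ : ℕ∞)) (fun y => u y + ramp (g y)) W :=
    hu.add (contDiff_ramp.comp_contDiffOn hg)
  have e1 : ∀ y ∈ W, pd (fun y => u y + ramp (g y)) j y =
      pd u j y + Real.smoothTransition (g y) * pd g j y := by
    intro y hy
    have hg' := ((hg.differentiableOn (by norm_num)) y hy).differentiableAt (hW.mem_nhds hy)
    have hu' := ((hu.differentiableOn (by norm_num)) y hy).differentiableAt (hW.mem_nhds hy)
    have hr : HasFDerivAt (fun y => ramp (g y)) (Real.smoothTransition (g y) • fderiv ℝ g y) y :=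
      (hasDerivAt_ramp (g y)).comp_hasFDerivAt y hg'.hasFDerivAt
    simp only [pd]
    rw [(hu'.hasFDerivAt.fun_add hr).fderiv]
    simp
  rw [hessian_eq hW hs hx]
  simp only [Matrix.add_apply, Matrix.smul_apply, vecMulVec_apply, smul_eq_mul,
    hessian_eq hW hu hx, hessian_eq hW hg hx]
  have hev : pd (fun y => u y + ramp (g y)) j =ᶠ[nhds x]
      fun y => pd u j y + Real.smoothTransition (g y) * pd g j y :=
    Filter.eventuallyEq_of_mem (hW.mem_nhds hx) e1
  have hg' := ((hg.differentiableOn (by norm_num)) x hx).differentiableAt (hW.mem_nhds hx)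
  have hgj := (((contDiffOn_pd hW hg j).differentiableOn (by norm_num)) x hx).differentiableAt
    (hW.mem_nhds hx)
  have huj := (((contDiffOn_pd hW hu j).differentiableOn (by norm_num)) x hx).differentiableAt
    (hW.mem_nhds hx)
  have hst : HasFDerivAt (fun y => Real.smoothTransition (g y))
      (deriv Real.smoothTransition (g x) • fderiv ℝ g x) x :=
    ((Real.smoothTransition.contDiff (n := (↑(⊤ : ℕ∞)))).differentiable (by norm_num)
      (g x)).hasDerivAt.comp_hasFDerivAt x hg'.hasFDerivAt
  conv_lhs => rw [pd, hev.fderiv_eq, (huj.hasFDerivAt.fun_add (hst.fun_mul hgj.hasFDerivAt)).fderiv]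
  simp [pd]
  ring

/-- The quadratic function with Hessian `diag (2 s)`. -/
noncomputable def quad (a : ℝ) (s : Fin n → ℝ) (x₀ x : V n) : ℝ :=
  a + ∑ i, s i * (x i - x₀ i) ^ 2

lemma contDiff_quad (a : ℝ) (s : Fin n → ℝ) (x₀ : V n) :
    ContDiff ℝ (↑(⊤ : ℕ∞)) (quad a s x₀) := by
  unfold quad; fun_prop

lemma hessian_quad (a : ℝ) (s : Fin n → ℝ) (x₀ x : V n) :
    hessian (quad a s x₀) x = Matrix.diagonal fun i => 2 * s i := by
  have hd : ∀ y i, pd (quad a s x₀) i y = 2 * s i * (y i - x₀ i) := by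
    intro y i
    have h1 : HasDerivAt (fun t : ℝ => quad a s x₀ (y + t • EuclideanSpace.single i (1:ℝ)))
        (pd (quad a s x₀) i y) 0 :=
      (((contDiff_quad a s x₀).differentiable (by norm_num)) y).hasFDerivAt.hasLineDerivAt _
    refine h1.unique ?_
    have h2 := (HasDerivAt.fun_sum (u := (Finset.univ : Finset (Fin n))) fun k _ =>
      (((((hasDerivAt_id (0:ℝ)).mul_const (if k = i then (1:ℝ) else 0)).const_add (y k)).sub_const
        (x₀ k)).fun_pow 2).const_mul (s k)).const_add a
    simp [quad] at h2 ⊢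
    refine h2.congr_deriv ?_
    ring
  have hc : ContDiffOn ℝ (↑(⊤ : ℕ∞)) (quad a s x₀) univ := (contDiff_quad a s x₀).contDiffOn
  ext i j
  rw [hessian_eq isOpen_univ hc (mem_univ x)]
  have h1 : HasDerivAt (fun t : ℝ => pd (quad a s x₀) j (x + t • EuclideanSpace.single i (1:ℝ)))
      (pd (pd (quad a s x₀) j) i x) 0 :=
    ((((contDiffOn_pd isOpen_univ hc j).differentiableOn (by norm_num)) x (mem_univ x)
      ).differentiableAt Filter.univ_mem).hasFDerivAt.hasLineDerivAt _
  refine h1.unique ?_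
  simp only [hd]
  refine ((((hasDerivAt_id (0:ℝ)).mul_const (if j = i then (1:ℝ) else 0)).const_add (x j)).sub_const
    (x₀ j) |>.const_mul (2 * s j)).congr_deriv ?_ |>.congr_of_eventuallyEq ?_
  · rcases eq_or_ne i j with h | h
    · subst h; simp
    · simp [h, h.symm]
  · exact Filter.Eventually.of_forall fun t => by simp

lemma volume_box (x₀ : V n) (w : Fin n → ℝ) (hw : ∀ i, 0 ≤ w i) :
    volume.real {x : V n | ∀ i, |x i - x₀ i| ≤ w i} = ∏ i, 2 * w i := by
  have e : {x : V n | ∀ i, |x i - x₀ i| ≤ w i} =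
      WithLp.ofLp ⁻¹' Set.Icc (fun i => x₀ i - w i) (fun i => x₀ i + w i) := by
    ext x
    simp only [Set.mem_ofPred_eq, Set.mem_preimage, Set.mem_Icc, Pi.le_def, abs_le]
    exact ⟨fun h => ⟨fun i => by linarith [h i], fun i => by linarith [h i]⟩,
      fun h i => ⟨by linarith [h.1 i], by linarith [h.2 i]⟩⟩
  rw [measureReal_def, e, (PiLp.volume_preserving_ofLp (Fin n)).measure_preimage
    measurableSet_Icc.nullMeasurableSet, Real.volume_Icc_pi_toReal (fun i => by linarith [hw i])]
  exact Finset.prod_congr rfl fun i _ => by ring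

lemma prod_scaled (I : Finset (Fin n)) (a b t : ℝ) :
    ∏ i, (if i ∈ I then a * t else b) = a ^ I.card * b ^ (n - I.card) * t ^ I.card := by
  rw [Finset.prod_ite, Finset.prod_const, Finset.prod_const, Finset.filter_mem_eq_inter,
    Finset.univ_inter, Finset.filter_notMem_eq_sdiff]
  rw [← Finset.compl_eq_univ_sdiff, Finset.card_compl, Fintype.card_fin, mul_pow]
  ring

namespace Slab

variable (P : Slab n)

lemma lower : ∃ c > 0, ∃ T : ℝ, ∀ t, T ≤ t →
    c * t ^ expo n P.I.card ≤ ∫ x in P.sub t, aff P.u x := by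
  classical
  obtain ⟨B, hB, hbox⟩ := P.exists_box
  have hC := P.C_pos
  obtain ⟨hΩ, hconv, hus, hpd⟩ := id P.adm
  obtain ⟨r₀, hr₀, hball⟩ := Metric.nhds_basis_closedBall.mem_iff.1 (hΩ.mem_nhds P.mem₀)
  obtain ⟨M₀, hM₀⟩ := (isCompact_closedBall P.x₀ r₀).exists_bound_of_continuousOn
    (hus.continuousOn.mono hball)
  have hM₀0 : 0 ≤ M₀ := (norm_nonneg _).trans (hM₀ P.x₀ (mem_closedBall_self hr₀.le))
  set a := 1 / (16 * P.C * (n + 1)) with ha
  set r₁ := r₀ / (2 * (n + 1)) with hr₁
  set β := 1 / (4 * (n + 1) * (B ^ 2 + P.C ^ 2)) with hβ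
  have ha0 : 0 < a := by positivity
  have hr₁0 : 0 < r₁ := by positivity
  have hβ0 : 0 < β := by positivity
  refine ⟨(2 * a) ^ P.I.card * (2 * r₁) ^ (n - P.I.card) * ((2 * β) ^ n) ^ ((1:ℝ) / (n + 2)),
    by positivity, 8 * (P.C + M₀) + 4, fun t ht => ?_⟩
  have ht4 : 4 ≤ t := by linarith
  have ht0 : 0 < t := by linarith
  set s := fun i => if i ∈ P.I then β / t else β * t with hs
  have hs0 : ∀ i, 0 < s i := fun i => by simp only [hs]; split_ifs <;> positivity
  set q := quad (t / 2) s P.x₀ with hq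
  have hqS : ∀ x ∈ P.sub t, q x ≤ 3 * t / 4 := by
    intro x hx
    have h1 : ∀ i, s i * (x i - P.x₀ i) ^ 2 ≤ β * t * (B ^ 2 + P.C ^ 2) := by
      intro i
      simp only [hs]
      split_ifs with hi
      · have := (hbox t (by linarith)).2 x hx i hi
        calc β / t * (x i - P.x₀ i) ^ 2 ≤ β / t * (B * t) ^ 2 :=
              mul_le_mul_of_nonneg_left (sq_le_sq' (abs_le.1 this).1 (abs_le.1 this).2) (by positivity)
          _ = β * t * B ^ 2 := by field_simp
          _ ≤ _ := by gcongr; nlinarith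
      · have := P.bdd x hx.1 i hi
        calc β * t * (x i - P.x₀ i) ^ 2 ≤ β * t * P.C ^ 2 :=
              mul_le_mul_of_nonneg_left (sq_le_sq' (abs_le.1 this).1 (abs_le.1 this).2) (by positivity)
          _ ≤ _ := by gcongr; nlinarith
    have h2 := Finset.sum_le_card_nsmul Finset.univ _ _ fun i _ => h1 i
    simp only [Finset.card_univ, Fintype.card_fin, nsmul_eq_mul] at h2
    have h3 : (n : ℝ) * (β * t * (B ^ 2 + P.C ^ 2)) ≤ t / 4 := by
      have : (n : ℝ) * (β * t * (B ^ 2 + P.C ^ 2)) = t / 4 * ((n : ℝ) / (n + 1)) := by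
        rw [hβ]; field_simp
      rw [this]
      exact mul_le_of_le_one_right (by linarith) ((div_le_one (by positivity)).2 (by linarith))
    simp only [hq, quad]
    linarith
  set W := P.Ω ∩ P.u ⁻¹' Iio t with hW
  have hWo : IsOpen W := hus.continuousOn.isOpen_inter_preimage hΩ isOpen_Iio
  set g := fun y => q y - P.u y with hg
  set v := W.piecewise (fun y => P.u y + ramp (g y)) P.u with hv
  have hgW : ContDiffOn ℝ (↑(⊤ : ℕ∞)) g W :=
    (contDiff_quad _ _ _).contDiffOn.sub (hus.mono inter_subset_left)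
  have hvW : ∀ x ∈ W, v =ᶠ[nhds x] fun y => P.u y + ramp (g y) := fun x hx =>
    Filter.eventuallyEq_of_mem (hWo.mem_nhds hx) fun y hy => Set.piecewise_eq_of_mem _ _ _ hy
  have hvN : ∀ x ∈ P.Ω, x ∉ W → v =ᶠ[nhds x] P.u := by
    intro x hx hxW
    have hxt : t ≤ P.u x := not_lt.1 fun h => hxW ⟨hx, h⟩
    refine Filter.eventuallyEq_of_mem ((hus.continuousOn.isOpen_inter_preimage hΩ
      (isOpen_Ioi (a := 3 * t / 4))).mem_nhds ⟨hx, show 3 * t / 4 < P.u x by linarith⟩) fun y hy => ?_
    by_cases hyW : y ∈ W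
    · have := hqS y ⟨hy.1, le_of_lt hyW.2⟩
      have h' : 3 * t / 4 < P.u y := hy.2
      rw [hv, Set.piecewise_eq_of_mem _ _ _ hyW, ramp_of_nonpos (by simp only [hg]; linarith),
        add_zero]
    · exact Set.piecewise_eq_of_notMem _ _ _ hyW
  have hvs : ContDiffOn ℝ (↑(⊤ : ℕ∞)) v P.Ω := by
    intro x hx
    by_cases hxW : x ∈ W
    · exact ((((hus.mono inter_subset_left).add (contDiff_ramp.comp_contDiffOn hgW)) x hxW
        ).contDiffAt (hWo.mem_nhds hxW)).congr_of_eventuallyEq (hvW x hxW) |>.contDiffWithinAt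
    · exact (((hus x hx).contDiffAt (hΩ.mem_nhds hx)).congr_of_eventuallyEq
        (hvN x hx hxW)).contDiffWithinAt
  have hHW : ∀ x ∈ W, hessian v x = (1 - Real.smoothTransition (g x)) • hessian P.u x
      + Real.smoothTransition (g x) • (Matrix.diagonal fun i => 2 * s i)
      + deriv Real.smoothTransition (g x) •
        vecMulVec (fun i => pd g i x) (fun j => pd g j x) := by
    intro x hx
    have e : hessian v x = hessian (fun y => P.u y + ramp (g y)) x := by
      ext i j
      simp only [hessian, Matrix.of_apply, ((hvW x hx).fderiv).fderiv_eq]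
    have eg : hessian g x = hessian q x - hessian P.u x := by
      ext i j
      have hqs : ContDiffOn ℝ (↑(⊤ : ℕ∞)) q W := (contDiff_quad _ _ _).contDiffOn
      have hu' : ContDiffOn ℝ (↑(⊤ : ℕ∞)) P.u W := hus.mono inter_subset_left
      rw [Matrix.sub_apply, hessian_eq hWo hgW hx, hessian_eq hWo hqs hx, hessian_eq hWo hu' hx]
      have e1 : pd g j =ᶠ[nhds x] fun y => pd q j y - pd P.u j y :=
        Filter.eventuallyEq_of_mem (hWo.mem_nhds hx) fun y hy => by
          simp [pd, hg, fderiv_fun_sub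
            (((hqs.differentiableOn (by norm_num)) y hy).differentiableAt (hWo.mem_nhds hy))
            (((hu'.differentiableOn (by norm_num)) y hy).differentiableAt (hWo.mem_nhds hy))]
      show fderiv ℝ (pd g j) x _ = fderiv ℝ (pd q j) x _ - fderiv ℝ (pd P.u j) x _
      rw [e1.fderiv_eq, fderiv_fun_sub
        ((((contDiffOn_pd hWo hqs j).differentiableOn (by norm_num)) x hx).differentiableAt
          (hWo.mem_nhds hx))
        ((((contDiffOn_pd hWo hu' j).differentiableOn (by norm_num)) x hx).differentiableAt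
          (hWo.mem_nhds hx))]
      simp
    rw [e, hessian_add_comp hWo (hus.mono inter_subset_left) hgW hx, eg, hq, hessian_quad]
    module
  have hvpd : ∀ x ∈ P.Ω, (hessian v x).PosDef := by
    intro x hx
    by_cases hxW : x ∈ W
    · rw [hHW x hxW]
      have hD : (Matrix.diagonal fun i => 2 * s i).PosDef :=
        Matrix.PosDef.diagonal fun i => by linarith [hs0 i]
      have hR : (deriv Real.smoothTransition (g x) •
          vecMulVec (fun i => pd g i x) (fun j => pd g j x)).PosSemidef := by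
        refine Matrix.PosSemidef.smul ?_ Real.smoothTransition.monotone.deriv_nonneg
        simpa using Matrix.posSemidef_vecMulVec_self_star (fun i => pd g i x)
      refine Matrix.PosDef.add_posSemidef ?_ hR
      rcases (Real.smoothTransition.le_one (g x)).lt_or_eq with h | h
      · exact ((hpd x hx).smul (by linarith : 0 < 1 - Real.smoothTransition (g x))).add_posSemidef
          (hD.posSemidef.smul (Real.smoothTransition.nonneg _))
      · simpa [h] using hD
    · have e : hessian v x = hessian P.u x := by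
        ext i j
        simp only [hessian, Matrix.of_apply, ((hvN x hx hxW).fderiv).fderiv_eq]
      rw [e]; exact hpd x hx
  have hv' : Admissible P.Ω v := ⟨hΩ, hconv, hvs, hvpd⟩
  set R := {x : V n | ∀ i, |x i - P.x₀ i| ≤ if i ∈ P.I then a * t else r₁} with hR
  have hRu : ∀ x ∈ R, x ∈ P.Ω ∧ P.u x ≤ t / 8 := by
    intro x hx
    set η := proj P.I (x - P.x₀) with hη
    set w := x - P.x₀ - η with hwdef
    have h2η : proj P.I ((2:ℝ) • η) = (2:ℝ) • η := by rw [proj_smul, hη, proj_proj]
    have hηn : ‖η‖ ≤ n * (a * t) := by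
      rw [vec_eq_sum η]
      refine (norm_sum_le _ _).trans ((Finset.sum_le_card_nsmul _ _ (a * t) fun i _ => ?_).trans
        (by simp))
      rw [norm_smul, EuclideanSpace.single, PiLp.norm_single, norm_one, mul_one, Real.norm_eq_abs,
        hη, proj_apply]
      split_ifs with hi
      · simpa [hi] using hx i
      · simpa using by positivity
    have hwn : ‖w‖ ≤ n * r₁ := by
      rw [vec_eq_sum w]
      refine (norm_sum_le _ _).trans ((Finset.sum_le_card_nsmul _ _ r₁ fun i _ => ?_).trans
        (by simp))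
      rw [norm_smul, EuclideanSpace.single, PiLp.norm_single, norm_one, mul_one, Real.norm_eq_abs,
        hwdef, PiLp.sub_apply, hη, proj_apply]
      split_ifs with hi
      · simpa using hr₁0.le
      · simpa [hi] using hx i
    have hwb : P.x₀ + (2:ℝ) • w ∈ closedBall P.x₀ r₀ := by
      rw [mem_closedBall, dist_eq_norm, add_sub_cancel_left, norm_smul, Real.norm_eq_abs,
        abs_of_pos (by norm_num : (0:ℝ) < 2)]
      have : 2 * ((n : ℝ) * r₁) ≤ r₀ := by
        rw [hr₁]; field_simp; nlinarith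
      linarith
    have ex : ((1:ℝ) / 2) • (P.x₀ + (2:ℝ) • η) + ((1:ℝ) / 2) • (P.x₀ + (2:ℝ) • w) = x := by
      rw [hwdef]; module
    have hxΩ : x ∈ P.Ω := ex ▸ hconv (P.slice _ h2η) (hball hwb) (by norm_num) (by norm_num)
      (by norm_num)
    refine ⟨hxΩ, ?_⟩
    have h := convex_comb_le P.adm (P.slice _ h2η) (hball hwb) (a := 1 / 2) (b := 1 / 2)
      (by norm_num) (by norm_num) (by norm_num)
    rw [ex] at h
    have h1 := P.growth _ h2η
    rw [norm_smul, Real.norm_eq_abs, abs_of_pos (by norm_num : (0:ℝ) < 2)] at h1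
    have h2 : P.u (P.x₀ + (2:ℝ) • w) ≤ M₀ := (le_abs_self _).trans (hM₀ _ hwb)
    have h3 : P.C * ((n : ℝ) * (a * t)) ≤ t / 16 := by
      have e : P.C * ((n : ℝ) * (a * t)) = t / 16 * ((n : ℝ) / (n + 1)) := by
        rw [ha]; field_simp
      rw [e]
      exact mul_le_of_le_one_right (by linarith) ((div_le_one (by positivity)).2 (by linarith))
    nlinarith [mul_le_mul_of_nonneg_left hηn hC.le]
  have hRS : R ⊆ P.sub t := fun x hx => ⟨(hRu x hx).1, by linarith [(hRu x hx).2]⟩
  have hRm : MeasurableSet R := by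
    have : R = ⋂ i, {x : V n | |x i - P.x₀ i| ≤ if i ∈ P.I then a * t else r₁} := by
      ext; simp [hR]
    rw [this]
    exact MeasurableSet.iInter fun i =>
      measurableSet_le (Continuous.measurable (by fun_prop)) measurable_const
  have hRH : ∀ x ∈ R, hessian v x = Matrix.diagonal fun i => 2 * s i := by
    intro x hx
    obtain ⟨hxΩ, hxu⟩ := hRu x hx
    have hxW : x ∈ W := ⟨hxΩ, show P.u x < t by linarith⟩
    have hg1 : 1 < g x := by
      have : (0:ℝ) ≤ ∑ i, s i * (x i - P.x₀ i) ^ 2 :=
        Finset.sum_nonneg fun i _ => mul_nonneg (hs0 i).le (sq_nonneg _)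
      simp only [hg, hq, quad]
      linarith
    have h1 : deriv Real.smoothTransition (g x) = 0 := by
      have e : Real.smoothTransition =ᶠ[nhds (g x)] fun _ => (1:ℝ) :=
        Filter.eventuallyEq_of_mem (isOpen_Ioi.mem_nhds (show g x ∈ Ioi (1:ℝ) from hg1))
          fun r hr => Real.smoothTransition.one_of_one_le (le_of_lt hr)
      rw [e.deriv_eq, deriv_const]
    rw [hHW x hxW, h1, Real.smoothTransition.one_of_one_le hg1.le]
    simp
  have hS := P.isCompact_sub t
  have hcmp := area P.Ω P.u v P.adm P.am hv' (P.sub t) (P.sub t) hS hS subset_rfl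
    (fun x hx => hx.1) (fun x hx hxS => by
      have : x ∉ W := fun h => hxS ⟨hx, le_of_lt h.2⟩
      exact Set.piecewise_eq_of_notMem _ _ _ this)
  refine le_trans ?_ hcmp
  have hvi : IntegrableOn (aff v) (P.sub t) volume :=
    ((contDiffOn_aff hv').continuousOn.mono fun x hx => hx.1).integrableOn_compact hS
  refine le_trans (le_of_eq ?_) (setIntegral_mono_set hvi
    ((ae_restrict_iff' hS.measurableSet).2 (Filter.Eventually.of_forall fun x hx =>
      Real.rpow_nonneg (hvpd x hx.1).det_pos.le _)) (HasSubset.Subset.eventuallyLE (s := R) hRS))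
  rw [setIntegral_congr_fun hRm (g := fun _ => (∏ i, 2 * s i) ^ ((1:ℝ) / (n + 2)))
    fun x hx => by simp only [aff, hRH x hx, Matrix.det_diagonal]]
  rw [setIntegral_const, smul_eq_mul, hR, volume_box _ _ fun i => by split_ifs <;> positivity]
  have e1 : ∏ i, 2 * (if i ∈ P.I then a * t else r₁) =
      ∏ i, if i ∈ P.I then 2 * a * t else 2 * r₁ :=
    Finset.prod_congr rfl fun i _ => by split_ifs <;> ring
  have e2 : ∏ i, 2 * s i = (2 * β) ^ n * (t ^ (n - P.I.card) / t ^ P.I.card) := by
    have : ∀ i, 2 * s i = (2 * β) * (if i ∈ P.I then t⁻¹ else t) := fun i => by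
      simp only [hs]; split_ifs <;> ring
    have h2 := prod_scaled P.I 1 t t⁻¹
    simp only [one_mul, one_pow] at h2
    rw [Finset.prod_congr rfl fun i _ => this i, Finset.prod_mul_distrib, Finset.prod_const,
      Finset.card_univ, Fintype.card_fin, h2, inv_pow, div_eq_mul_inv]
  rw [e1, prod_scaled, e2, Real.mul_rpow (by positivity) (by positivity)]
  have hk : P.I.card ≤ n := by simpa using Finset.card_le_univ P.I
  have e3 : t ^ P.I.card * (t ^ (n - P.I.card) / t ^ P.I.card) ^ ((1:ℝ) / (n + 2)) =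
      t ^ expo n P.I.card := by
    rw [← Real.rpow_natCast, ← Real.rpow_natCast, ← Real.rpow_sub ht0, ← Real.rpow_mul ht0.le,
      ← Real.rpow_add ht0, Nat.cast_sub hk, expo]
    congr 1
    field_simp
    ring
  rw [← e3]
  ring

end Slab

end Vale.Agent.P252B
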