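import Vale.Agent.P252B.Smooth

/-!
Tangent inequalities for a function with positive definite Hessian on a convex open set.
-/

open Set Matrix Finset

namespace Vale.Agent.P252B

open Vale.Agent.P252 (hessian)

variable {n : ℕ} {Ω : Set (V n)} {u : V n → ℝ}

lemma vec_eq_sum (v : V n) : v = ∑ i, v i • EuclideanSpace.single i (1 : ℝ) := by
  ext j
  simp [Pi.single_apply, Finset.sum_ite_eq]

lemma fderiv_apply_sum (f : V n → ℝ) (x v : V n) : fderiv ℝ f x v = ∑ i, v i * pd f i x := by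
  conv_lhs => rw [vec_eq_sum v]
  simp [pd, map_sum]

lemma diffAt_of_mem (hΩ : IsOpen Ω) (hu : ContDiffOn ℝ (↑(⊤ : ℕ∞)) u Ω) {x : V n} (hx : x ∈ Ω) :
    DifferentiableAt ℝ u x :=
  ((hu.differentiableOn (by norm_num)) x hx).differentiableAt (hΩ.mem_nhds hx)

lemma second_deriv_pos (hu : Admissible Ω u) {x v : V n} (hx : x ∈ Ω) (hv : v ≠ 0) :
    0 < fderiv ℝ (fderiv ℝ u) x v v := by
  have h := (hu.2.2.2 x hx).dotProduct_mulVec_pos (x := WithLp.ofLp v)
    (fun h => hv (by ext i; simpa using congrFun h i))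
  have e : fderiv ℝ (fderiv ℝ u) x v v = ∑ i, ∑ j, v i * (hessian u x i j * v j) := by
    conv_lhs => rw [vec_eq_sum v]
    simp [map_sum, hessian, Finset.mul_sum]
    refine Finset.sum_comm.trans (Finset.sum_congr rfl fun i _ => Finset.sum_congr rfl fun j _ => ?_)
    ring
  rw [e]
  refine h.trans_eq ?_
  simp [dotProduct, Matrix.mulVec, Finset.mul_sum]

/-- The strict tangent inequality. -/
lemma tangent_lt (hu : Admissible Ω u) {x y : V n} (hx : x ∈ Ω) (hy : y ∈ Ω) (hne : x ≠ y) :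
    u x + fderiv ℝ u x (y - x) < u y := by
  obtain ⟨hΩ, hc, hs, -⟩ := id hu
  set v : V n := y - x with hv
  have hv0 : v ≠ 0 := sub_ne_zero.2 (Ne.symm hne)
  have hmem : ∀ s ∈ Icc (0:ℝ) 1, x + s • v ∈ Ω := fun s hs => hc.add_smul_sub_mem hx hy hs
  have hl : ∀ s : ℝ, HasDerivAt (fun s : ℝ => x + s • v) v s := fun s => by
    simpa using ((hasDerivAt_id s).smul_const v).const_add x
  set g := fun s : ℝ => fderiv ℝ u (x + s • v) v with hg
  have h1 : ∀ s ∈ Icc (0:ℝ) 1, HasDerivAt (fun s : ℝ => u (x + s • v)) (g s) s := fun s hs' =>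
    (diffAt_of_mem hΩ hs (hmem s hs')).hasFDerivAt.comp_hasDerivAt s (hl s)
  have h2 : ∀ s ∈ Icc (0:ℝ) 1,
      HasDerivAt g (fderiv ℝ (fderiv ℝ u) (x + s • v) v v) s := by
    intro s hs'
    have hd : DifferentiableAt ℝ (fderiv ℝ u) (x + s • v) :=
      (((hs.fderiv_of_isOpen (m := (↑(⊤ : ℕ∞))) hΩ le_rfl).differentiableOn (by norm_num)) _
        (hmem s hs')).differentiableAt (hΩ.mem_nhds (hmem s hs'))
    have hk : HasDerivAt (fun r : ℝ => fderiv ℝ u (x + r • v))
        (fderiv ℝ (fderiv ℝ u) (x + s • v) v) s := hd.hasFDerivAt.comp_hasDerivAt s (hl s)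
    exact ((hk.clm_apply (hasDerivAt_const s v)).congr_deriv (by rw [map_zero, add_zero]))
  have hmono : StrictMonoOn g (Icc 0 1) := by
    refine strictMonoOn_of_deriv_pos (convex_Icc 0 1)
      (fun s hs' => (h2 s hs').continuousAt.continuousWithinAt) ?_
    rw [interior_Icc]
    intro s hs'
    rw [(h2 s (Ioo_subset_Icc_self hs')).deriv]
    exact second_deriv_pos hu (hmem s (Ioo_subset_Icc_self hs')) hv0
  obtain ⟨c, hc', he⟩ := exists_hasDerivAt_eq_slope (fun s : ℝ => u (x + s • v)) g one_pos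
    (fun s hs' => (h1 s hs').continuousAt.continuousWithinAt)
    (fun s hs' => h1 s (Ioo_subset_Icc_self hs'))
  have hlt := hmono (left_mem_Icc.2 zero_le_one) (Ioo_subset_Icc_self hc') hc'.1
  have e1 : g 0 = fderiv ℝ u x v := by simp [hg]
  have e2 : x + v = y := by simp [hv]
  simp only [one_smul, zero_smul, add_zero, sub_zero, div_one, e2] at he
  linarith

/-- The tangent inequality. -/
lemma tangent_le (hu : Admissible Ω u) {x y : V n} (hx : x ∈ Ω) (hy : y ∈ Ω) :
    u x + fderiv ℝ u x (y - x) ≤ u y := by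
  rcases eq_or_ne x y with h | h
  · subst h; simp
  · exact (tangent_lt hu hx hy h).le

lemma fderiv_strict_mono (hu : Admissible Ω u) {x y : V n} (hx : x ∈ Ω) (hy : y ∈ Ω)
    (hne : x ≠ y) : fderiv ℝ u x (y - x) < fderiv ℝ u y (y - x) := by
  have h1 := tangent_lt hu hx hy hne
  have h2 := tangent_lt hu hy hx hne.symm
  rw [← neg_sub y x, map_neg] at h2
  linarith

/-- Convexity. -/
lemma convex_comb_le (hu : Admissible Ω u) {x y : V n} (hx : x ∈ Ω) (hy : y ∈ Ω) {a b : ℝ}
    (ha : 0 ≤ a) (hb : 0 ≤ b) (hab : a + b = 1) : u (a • x + b • y) ≤ a * u x + b * u y := by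
  have hm := hu.2.1 hx hy ha hb hab
  set m := a • x + b • y with hmdef
  have h1 := mul_le_mul_of_nonneg_left (tangent_le hu hm hx) ha
  have h2 := mul_le_mul_of_nonneg_left (tangent_le hu hm hy) hb
  have e : a * fderiv ℝ u m (x - m) + b * fderiv ℝ u m (y - m) = 0 := by
    have : a • (x - m) + b • (y - m) = 0 := by
      rw [smul_sub, smul_sub, sub_add_sub_comm, ← add_smul, hab, one_smul, sub_self]
    have h := congrArg (fderiv ℝ u m) this
    simpa using h
  have : u m = a * u m + b * u m := by rw [← add_mul, hab, one_mul]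
  linarith

end Vale.Agent.P252B
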