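import Vale.Agent.P252.Defs

/-!
Definitions for the nonexistence of Euclidean complete affine maximal graphs of at most linear
growth over slabs.
-/

open Set MeasureTheory

namespace Vale.Agent.P252B

open Vale.Agent.P252 (hessian)

/-- The space of the variables. -/
abbrev V (n : ℕ) := EuclideanSpace ℝ (Fin n)

/-- The `i`-th partial derivative. -/
noncomputable def pd {n : ℕ} (f : V n → ℝ) (i : Fin n) (x : V n) : ℝ :=
  fderiv ℝ f x (EuclideanSpace.single i 1)

/-- The gradient, with the coordinate `i` scaled by `s i`. -/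
noncomputable def grad {n : ℕ} (f : V n → ℝ) (s : Fin n → ℝ) (x : V n) : V n :=
  WithLp.toLp 2 fun i => s i * pd f i x

/-- The affine area density `(det D²f) ^ (1/(n+2))`. -/
noncomputable def aff {n : ℕ} (f : V n → ℝ) (x : V n) : ℝ :=
  (hessian f x).det ^ ((1 : ℝ) / ((n : ℝ) + 2))

/-- The finite measure on gradients. -/
noncomputable def gmeas (n : ℕ) : Measure (V n) :=
  volume.withDensity fun q => ENNReal.ofReal ((1 + ‖q‖) ^ (-((n : ℝ) + 1)))

/-- Smooth, uniformly convex on an open convex set. -/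
def Admissible {n : ℕ} (Ω : Set (V n)) (u : V n → ℝ) : Prop :=
  IsOpen Ω ∧ Convex ℝ Ω ∧ ContDiffOn ℝ (↑(⊤ : ℕ∞)) u Ω ∧ ∀ x ∈ Ω, (hessian u x).PosDef

/-- The affine maximal equation on `Ω`. -/
def IsAM {n : ℕ} (Ω : Set (V n)) (u : V n → ℝ) : Prop :=
  ∀ x ∈ Ω, ∑ i, ∑ j, ((hessian u x).det * (hessian u x)⁻¹ i j)
    * hessian (fun y => (hessian u y).det ^ (-(((n : ℝ) + 1) / ((n : ℝ) + 2)))) x i j = 0

/-- The box with half-widths `b`. -/
def box {n : ℕ} (b : Fin n → ℝ) : Set (V n) := {x | ∀ i, |x i| ≤ b i}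

end Vale.Agent.P252B
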