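import Vale.Agent.P252B.Convex
import Vale.Agent.P252B.Spec

/-!
Hölder's inequality against the gradient image, and the variation bound.
-/

open Set Finset MeasureTheory Matrix

namespace Vale.Agent.P252B

open Vale.Agent.P252 (hessian)

variable {n : ℕ}

theorem gmeasFinite : GmeasFiniteSpec := fun n => by
  have h := finite_integral_one_add_norm (E := V n) (μ := (volume : Measure (V n)))
    (r := (n : ℝ) + 1) (by simp)
  exact isFiniteMeasure_withDensity h.ne

theorem holderImage : HolderImageSpec := by
  intro n Ω u hu s hs S hS hSΩ T hT hTS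
  obtain ⟨hΩ, -, hus, hpd⟩ := id hu
  set q := grad u s with hq
  set N := (n : ℝ) + 2 with hN
  have hN0 : 0 < N := by positivity
  have hqd : ContDiffOn ℝ (↑(⊤ : ℕ∞)) q Ω :=
    contDiffOn_euclidean.2 fun i => contDiffOn_const.mul (contDiffOn_pd hΩ hus i)
  have hd : ∀ x ∈ Ω, DifferentiableAt ℝ q x := fun x hx =>
    ((hqd.differentiableOn (by norm_num)) x hx).differentiableAt (hΩ.mem_nhds hx)
  have hdet : ∀ x ∈ Ω, |(fderiv ℝ q x).det| = (∏ i, s i) * (hessian u x).det := by
    intro x hx
    set b := (EuclideanSpace.basisFun (Fin n) ℝ).toBasis with hb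
    have hm : LinearMap.toMatrix b b (fderiv ℝ q x).toLinearMap =
        Matrix.diagonal s * (hessian u x)ᵀ := by
      ext i j
      rw [LinearMap.toMatrix_apply, Matrix.diagonal_mul, Matrix.transpose_apply]
      simp only [hb, OrthonormalBasis.coe_toBasis, OrthonormalBasis.coe_toBasis_repr_apply,
        EuclideanSpace.basisFun_repr, EuclideanSpace.basisFun_apply, ContinuousLinearMap.coe_coe]
      have h1 : HasDerivAt (fun t : ℝ => q (x + t • EuclideanSpace.single j 1) i)
          ((fderiv ℝ q x (EuclideanSpace.single j 1)) i) 0 :=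
        (PiLp.proj 2 (fun _ : Fin n => ℝ) i).hasFDerivAt.comp_hasDerivAt (0 : ℝ)
          ((hd x hx).hasFDerivAt.hasLineDerivAt (EuclideanSpace.single j 1))
      have h2 : HasDerivAt (fun t : ℝ => q (x + t • EuclideanSpace.single j 1) i)
          (s i * hessian u x j i) 0 := by
        rw [hessian_eq hΩ hus hx]
        exact ((((contDiffOn_pd hΩ hus i).differentiableOn (by norm_num)) x hx).differentiableAt
          (hΩ.mem_nhds hx)).hasFDerivAt.hasLineDerivAt (EuclideanSpace.single j 1) |>.const_mul _
      exact h1.unique h2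
    rw [ContinuousLinearMap.det, ← LinearMap.det_toMatrix b, hm, Matrix.det_mul,
      Matrix.det_diagonal, Matrix.det_transpose, abs_of_pos]
    exact mul_pos (Finset.prod_pos fun i _ => hs i) (hpd x hx).det_pos
  have hinj : InjOn q T := by
    intro x hx y hy hxy
    by_contra hne
    have hp : ∀ i, pd u i x = pd u i y := fun i => by
      have h := congrFun (congrArg WithLp.ofLp hxy) i
      simp only [hq, grad] at h
      exact mul_left_cancel₀ (hs i).ne' h
    have h := fderiv_strict_mono hu (hSΩ (hTS hx)) (hSΩ (hTS hy)) hne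
    rw [fderiv_apply_sum, fderiv_apply_sum] at h
    simp only [hp, lt_irrefl] at h
  set W := fun z : V n => (1 + ‖z‖) ^ (-((n : ℝ) + 1)) with hW
  have hW0 : ∀ z, 0 < W z := fun z => by
    have := norm_nonneg z
    simp only [hW]; positivity
  have hWi : Integrable W := integrable_one_add_norm (by simp)
  have hf' : ∀ x ∈ T, HasFDerivWithinAt q (fderiv ℝ q x) T x := fun x hx =>
    (hd x (hSΩ (hTS hx))).hasFDerivAt.hasFDerivWithinAt
  have hm : MeasurableSet (q '' T) := measurable_image_of_fderivWithin hT hf' hinj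
  have himg : (gmeas n).real (q '' T) = ∫ x in T, |(fderiv ℝ q x).det| * W (q x) := by
    have e : ∫ z in q '' T, W z = ∫ x in T, |(fderiv ℝ q x).det| * W (q x) := by
      simpa [smul_eq_mul] using
        integral_image_eq_integral_abs_det_fderiv_smul volume hT hf' hinj W
    rw [← e, measureReal_def, gmeas, withDensity_apply _ hm,
      ← ofReal_integral_eq_lintegral_ofReal hWi.integrableOn
        (Filter.Eventually.of_forall fun z => (hW0 z).le),
      ENNReal.toReal_ofReal (setIntegral_nonneg hm fun z _ => (hW0 z).le)]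
  set f := fun x => (|(fderiv ℝ q x).det| * W (q x)) ^ ((1 : ℝ) / N) with hf
  set g := fun x => (1 + ‖q x‖) ^ (((n : ℝ) + 1) / N) with hg
  have hP0 : 0 < ∏ i, s i := Finset.prod_pos fun i _ => hs i
  have haff : ∀ x ∈ T, aff u x = ((∏ i, s i)⁻¹) ^ ((1 : ℝ) / N) * (f x * g x) := by
    intro x hx
    have hH := (hpd x (hSΩ (hTS hx))).det_pos
    have hw := norm_nonneg (q x)
    simp only [hf, hg, hW, hdet x (hSΩ (hTS hx)), aff]
    rw [Real.mul_rpow (by positivity) (by positivity), Real.mul_rpow hP0.le hH.le,
      ← Real.rpow_mul (by positivity), mul_assoc ((∏ i, s i) ^ ((1:ℝ) / N) * _),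
      ← Real.rpow_add (by positivity), Real.inv_rpow hP0.le]
    rw [show -((n : ℝ) + 1) * (1 / N) + ((n : ℝ) + 1) / N = 0 by ring, Real.rpow_zero]
    field_simp
    rw [hN]
  have hcW : ContinuousOn (fun x => W (q x)) S := by
    simp only [hW]
    refine ContinuousOn.rpow_const ?_ fun x _ => Or.inl (ne_of_gt (by positivity))
    exact continuousOn_const.add (hqd.continuousOn.mono hSΩ).norm
  have hcd : ContinuousOn (fun x => |(fderiv ℝ q x).det|) S := by
    refine ContinuousOn.congr ?_ (fun x hx => hdet x (hSΩ hx))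
    exact continuousOn_const.mul ((contDiffOn_det fun i j =>
      contDiffOn_hessian hΩ hus i j).continuousOn.mono hSΩ)
  have hcf : ContinuousOn f S := (hcd.mul hcW).rpow_const fun _ _ => Or.inr (by positivity)
  have hcg : ContinuousOn g S :=
    (continuousOn_const.add (hqd.continuousOn.mono hSΩ).norm).rpow_const
      fun _ _ => Or.inr (by positivity)
  have : IsFiniteMeasure (volume.restrict T) := by
    constructor
    rw [Measure.restrict_apply_univ]
    exact lt_of_le_of_lt (measure_mono hTS) hS.measure_lt_top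
  have hmem : ∀ {h : V n → ℝ} (p : ENNReal), ContinuousOn h S → MemLp h p (volume.restrict T) := by
    intro h p hh
    obtain ⟨B, hB⟩ := hS.exists_bound_of_continuousOn hh
    exact MemLp.of_bound ((hh.mono hTS).aestronglyMeasurable hT) B
      ((ae_restrict_iff' hT).2 (Filter.Eventually.of_forall fun x hx => hB x (hTS hx)))
  have hpq : N.HolderConjugate (N / ((n : ℝ) + 1)) := by
    rw [Real.holderConjugate_iff]
    refine ⟨by have := n.cast_nonneg (α := ℝ); rw [hN]; linarith, ?_⟩
    rw [hN]; field_simp; ring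
  have hf0 : ∀ x, 0 ≤ |(fderiv ℝ q x).det| * W (q x) := fun x =>
    mul_nonneg (abs_nonneg _) (hW0 _).le
  have hholder := integral_mul_le_Lp_mul_Lq_of_nonneg hpq
    (Filter.Eventually.of_forall fun x => Real.rpow_nonneg (hf0 x) _)
    (Filter.Eventually.of_forall fun x => Real.rpow_nonneg (by positivity) _)
    (hmem _ hcf) (hmem _ hcg)
  have e1 : ∀ x, ((|(fderiv ℝ q x).det| * W (q x)) ^ ((1 : ℝ) / N)) ^ N
      = |(fderiv ℝ q x).det| * W (q x) := fun x => by
    rw [← Real.rpow_mul (hf0 x), one_div_mul_cancel hN0.ne', Real.rpow_one]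
  have e2 : ∀ x, ((1 + ‖q x‖) ^ (((n : ℝ) + 1) / N)) ^ (N / ((n : ℝ) + 1)) = 1 + ‖q x‖ := fun x => by
    rw [← Real.rpow_mul (by positivity), show ((n : ℝ) + 1) / N * (N / ((n : ℝ) + 1)) = 1 by
      field_simp, Real.rpow_one]
  simp only [e1, e2, ← himg, one_div_div] at hholder
  rw [setIntegral_congr_fun hT haff, integral_const_mul,
    Real.mul_rpow (by positivity) measureReal_nonneg, mul_assoc]
  refine mul_le_mul_of_nonneg_left (hholder.trans
    (mul_le_mul_of_nonneg_left ?_ (by positivity))) (by positivity)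
  refine Real.rpow_le_rpow (setIntegral_nonneg hT fun x _ => by positivity) ?_ (by positivity)
  have hJ : IntegrableOn (fun x => 1 + ∑ i, |s i * pd u i x|) S volume :=
    (continuousOn_const.add (continuousOn_finsetSum _ fun i _ =>
      ((continuousOn_const.mul ((contDiffOn_pd hΩ hus i).continuousOn.mono hSΩ))).abs)
      ).integrableOn_compact hS
  refine (setIntegral_mono_on ?_ (hJ.mono_set hTS) hT fun x _ => ?_).trans
    (setIntegral_mono_set hJ (Filter.Eventually.of_forall fun x => by positivity)
      (Filter.Eventually.of_forall hTS))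
  · exact (((continuousOn_const.add (hqd.continuousOn.mono hSΩ).norm)).integrableOn_compact hS
      ).mono_set hTS
  · refine add_le_add le_rfl ?_
    conv_lhs => rw [vec_eq_sum (q x)]
    refine norm_sum_le_of_le _ fun i _ => ?_
    rw [norm_smul, EuclideanSpace.single, PiLp.norm_single, norm_one, mul_one, Real.norm_eq_abs]
    rfl

/-- The variation of a differentiable function with monotone derivative on an interval. -/
lemma variation_interval {g g' : ℝ → ℝ} {a b τ : ℝ} (hab : a ≤ b)
    (hg : ∀ r ∈ Icc a b, HasDerivAt g (g' r) r) (hmono : MonotoneOn g' (Icc a b))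
    (hc : ContinuousOn g' (Icc a b)) (h0 : ∀ r ∈ Icc a b, 0 ≤ g r ∧ g r ≤ τ) :
    ∫ r in Icc a b, |g' r| ≤ 2 * τ := by
  have hgc : ContinuousOn g (Icc a b) := fun r hr => (hg r hr).continuousAt.continuousWithinAt
  obtain ⟨c, hc', hmin⟩ := isCompact_Icc.exists_isMinOn (nonempty_Icc.2 hab) hgc
  have hneg : ∀ r ∈ Ico a c, g' r ≤ 0 := by
    intro r hr
    have hrc : r < c := hr.2
    obtain ⟨ξ, hξ, he⟩ := exists_hasDerivAt_eq_slope g g' hrc
      (hgc.mono (Icc_subset_Icc hr.1 hc'.2))
      fun x hx => hg x ⟨hr.1.trans hx.1.le, hx.2.le.trans hc'.2⟩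
    have h1 : g c ≤ g r := hmin ⟨hr.1, hrc.le.trans hc'.2⟩
    have h2 : g' ξ ≤ 0 := by
      rw [he]; exact div_nonpos_of_nonpos_of_nonneg (by linarith) (by linarith)
    exact (hmono ⟨hr.1, hrc.le.trans hc'.2⟩ ⟨hr.1.trans hξ.1.le, hξ.2.le.trans hc'.2⟩ hξ.1.le).trans h2
  have hpos : ∀ r ∈ Ioc c b, 0 ≤ g' r := by
    intro r hr
    have hrc : c < r := hr.1
    obtain ⟨ξ, hξ, he⟩ := exists_hasDerivAt_eq_slope g g' hrc
      (hgc.mono (Icc_subset_Icc hc'.1 hr.2))
      fun x hx => hg x ⟨hc'.1.trans hx.1.le, hx.2.le.trans hr.2⟩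
    have h1 : g c ≤ g r := hmin ⟨hc'.1.trans hrc.le, hr.2⟩
    have h2 : 0 ≤ g' ξ := by rw [he]; exact div_nonneg (by linarith) (by linarith)
    exact h2.trans (hmono ⟨hc'.1.trans hξ.1.le, hξ.2.le.trans hr.2⟩ ⟨hc'.1.trans hrc.le, hr.2⟩ hξ.2.le)
  have hi1 : IntervalIntegrable g' volume a c :=
    (hc.mono (Icc_subset_Icc le_rfl hc'.2)).intervalIntegrable_of_Icc hc'.1
  have hi2 : IntervalIntegrable g' volume c b :=
    (hc.mono (Icc_subset_Icc hc'.1 le_rfl)).intervalIntegrable_of_Icc hc'.2
  have l1 : ∫ r in a..c, |g' r| = g a - g c := by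
    rw [intervalIntegral.integral_congr_ae (g := fun r => -g' r) ?_, intervalIntegral.integral_neg,
      intervalIntegral.integral_eq_sub_of_hasDerivAt
        (fun r hr => hg r (by rw [uIcc_of_le hc'.1] at hr; exact ⟨hr.1, hr.2.trans hc'.2⟩)) hi1]
    · ring
    · filter_upwards [Measure.ae_ne volume c] with r hr hm
      rw [uIoc_of_le hc'.1] at hm
      exact abs_of_nonpos (hneg r ⟨hm.1.le, lt_of_le_of_ne hm.2 hr⟩)
  have l2 : ∫ r in c..b, |g' r| = g b - g c := by
    rw [intervalIntegral.integral_congr_ae (g := g') ?_,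
      intervalIntegral.integral_eq_sub_of_hasDerivAt
        (fun r hr => hg r (by rw [uIcc_of_le hc'.2] at hr; exact ⟨hc'.1.trans hr.1, hr.2⟩)) hi2]
    refine Filter.Eventually.of_forall fun r hm => ?_
    rw [uIoc_of_le hc'.2] at hm
    exact abs_of_nonneg (hpos r hm)
  rw [integral_Icc_eq_integral_Ioc, ← intervalIntegral.integral_of_le hab,
    ← intervalIntegral.integral_add_adjacent_intervals hi1.abs hi2.abs, l1, l2]
  have := h0 a (left_mem_Icc.2 hab)
  have := h0 b (right_mem_Icc.2 hab)
  have := h0 c hc'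
  linarith

theorem variation : VariationSpec := by
  intro n Ω u hu τ b hτ hb hnn hS hbox
  obtain ⟨hΩ, hconv, hus, hpd⟩ := id hu
  set S := {x | x ∈ Ω ∧ u x ≤ τ} with hSdef
  have hSc : Convex ℝ S := by
    rintro x ⟨hx, hxu⟩ y ⟨hy, hyu⟩ p r hp hr hpr
    refine ⟨hconv hx hy hp hr hpr, (convex_comb_le hu hx hy hp hr hpr).trans ?_⟩
    calc p * u x + r * u y ≤ p * τ + r * τ := by gcongr
      _ = τ := by rw [← add_mul, hpr, one_mul]
  have hvb : {x : V n | ∀ i, |x i| ≤ b i} =
      WithLp.ofLp ⁻¹' Set.Icc (fun i => -b i) b := by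
    ext x
    simp only [Set.mem_ofPred_eq, Set.mem_preimage, Set.mem_Icc, Pi.le_def, abs_le, forall_and]
  refine ⟨?_, ?_⟩
  swap
  · refine (ENNReal.toReal_mono ?_ (measure_mono hbox)).trans (le_of_eq ?_)
    · rw [box, hvb, (PiLp.volume_preserving_ofLp (Fin n)).measure_preimage
        measurableSet_Icc.nullMeasurableSet]
      exact isCompact_Icc.measure_lt_top.ne
    · rw [box, hvb, (PiLp.volume_preserving_ofLp (Fin n)).measure_preimage
        measurableSet_Icc.nullMeasurableSet, Real.volume_Icc_pi_toReal (fun i => by linarith [hb i])]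
      exact Finset.prod_congr rfl fun i _ => by ring
  · intro i
    obtain ⟨m, rfl⟩ : ∃ m, n = m + 1 := ⟨n - 1, by have := i.pos; omega⟩
    set e := (MeasurableEquiv.piFinSuccAbove (fun _ : Fin (m + 1) => ℝ) i) with he
    have hmp : MeasurePreserving (fun x : V (m + 1) => e (WithLp.ofLp x)) volume volume :=
      (volume_preserving_piFinSuccAbove (fun _ : Fin (m + 1) => ℝ) i).comp
        (PiLp.volume_preserving_ofLp (Fin (m + 1)))
    have hem : MeasurableEmbedding (fun x : V (m + 1) => e (WithLp.ofLp x)) :=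
      e.measurableEmbedding.comp (MeasurableEquiv.toLp 2 (Fin (m + 1) → ℝ)).symm.measurableEmbedding
    set ι : ℝ × (Fin m → ℝ) → V (m + 1) := fun p => WithLp.toLp 2 (e.symm p) with hι
    have hιe : ∀ x : V (m + 1), ι (e (WithLp.ofLp x)) = x := fun x => by simp [hι]
    set h : ℝ × (Fin m → ℝ) → ℝ := fun p => S.indicator (fun x => |pd u i x|) (ι p) with hh
    have hpd' : ContinuousOn (fun x => |pd u i x|) S :=
      ((contDiffOn_pd hΩ hus i).continuousOn.mono fun x hx => hx.1).abs
    have hint : Integrable (S.indicator fun x => |pd u i x|) :=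
      (integrable_indicator_iff hS.measurableSet).2 (hpd'.integrableOn_compact hS)
    have hhi : Integrable h (volume.prod volume) := by
      rw [← Measure.volume_eq_prod, ← hmp.integrable_comp_emb hem]
      simpa [hh, Function.comp_def, hιe] using hint
    have e0 : (∫ x in S, |pd u i x|) = ∫ p, h p ∂(volume.prod volume) := by
      rw [← integral_indicator hS.measurableSet, ← Measure.volume_eq_prod, ← hmp.integral_comp hem h]
      simp [hh, hιe]
    rw [e0, integral_prod_symm h hhi]
    set P := Set.Icc (fun j : Fin m => -b (i.succAbove j)) (fun j => b (i.succAbove j)) with hP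
    have hcoord : ∀ r y, ι (r, y) i = r ∧ ∀ j, ι (r, y) (i.succAbove j) = y j := fun r y => by
      simp [hι, he, MeasurableEquiv.piFinSuccAbove_symm_apply]
    set D : V (m + 1) := EuclideanSpace.single i 1 with hD
    have hline : ∀ r y, ι (r, y) = ι (0, y) + r • D := fun r y => by
      ext k
      refine i.succAboveCases ?_ (fun j => ?_) k
      · simp [(hcoord r y).1, (hcoord 0 y).1, hD]
      · simp [(hcoord r y).2 j, (hcoord 0 y).2 j, hD, Fin.succAbove_ne]
    have hkey : ∀ y, (∫ r, h (r, y)) ≤ P.indicator (fun _ => 2 * τ) y := by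
      intro y
      by_cases hy : ∃ r, ι (r, y) ∈ S
      swap
      · push Not at hy
        simp only [hh, Set.indicator_of_notMem (hy _), integral_zero]
        exact Set.indicator_nonneg (fun _ _ => by linarith) _
      obtain ⟨r₀, hr₀⟩ := hy
      have hyP : y ∈ P := by
        have hb' := fun j => hbox hr₀ (i.succAbove j)
        simp only [(hcoord r₀ y).2, abs_le] at hb'
        exact ⟨fun j => (hb' j).1, fun j => (hb' j).2⟩
      rw [Set.indicator_of_mem hyP]
      set T := (fun r : ℝ => ι (r, y)) ⁻¹' S with hT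
      have hfun : (fun r : ℝ => ι (r, y)) = fun r : ℝ => ι (0, y) + r • D :=
        funext fun r => hline r y
      have hιc : Continuous fun r : ℝ => ι (r, y) := by rw [hfun]; fun_prop
      have hTc : IsClosed T := hS.isClosed.preimage hιc
      have hTb : T ⊆ Set.Icc (-b i) (b i) := fun r hr => by
        have := hbox hr i
        rw [(hcoord r y).1] at this
        exact abs_le.1 this
      have hTv : Convex ℝ T := by
        intro a ha c hc p q hp hq hpq
        have := hSc ha hc hp hq hpq
        simp only [hT, Set.mem_preimage, smul_eq_mul] at this ⊢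
        rw [hline (p * a + q * c) y]
        rw [hline a y, hline c y] at this
        convert this using 1
        obtain rfl : q = 1 - p := by linarith
        module
      have hTeq : T = Set.Icc (sInf T) (sSup T) :=
        eq_Icc_of_connected_compact ⟨⟨r₀, hr₀⟩, hTv.isPreconnected⟩
          (isCompact_Icc.of_isClosed_subset hTc hTb)
      have e1 : (∫ r, h (r, y)) = ∫ r in T, |pd u i (ι (r, y))| := by
        rw [← integral_indicator hTc.measurableSet]
        refine integral_congr_ae (Filter.Eventually.of_forall fun r => ?_)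
        simp only [hh, hT]
        by_cases hr : ι (r, y) ∈ S
        · rw [Set.indicator_of_mem hr, Set.indicator_of_mem (show r ∈ (fun r : ℝ => ι (r, y)) ⁻¹' S from hr)]
        · rw [Set.indicator_of_notMem hr,
            Set.indicator_of_notMem (show r ∉ (fun r : ℝ => ι (r, y)) ⁻¹' S from hr)]
      rw [e1]
      have hab : sInf T ≤ sSup T := by
        have : r₀ ∈ Set.Icc (sInf T) (sSup T) := hTeq ▸ (show r₀ ∈ T from hr₀)
        exact this.1.trans this.2
      have hmem : ∀ r ∈ Set.Icc (sInf T) (sSup T), ι (r, y) ∈ S := fun r hr =>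
        (show r ∈ T from hTeq ▸ hr)
      have hl : ∀ r : ℝ, HasDerivAt (fun r : ℝ => ι (r, y)) D r := fun r => by
        rw [hfun]
        simpa using ((hasDerivAt_id r).smul_const D).const_add (ι (0, y))
      rw [hTeq]
      refine variation_interval (g := fun r => u (ι (r, y))) hab (fun r hr => ?_) ?_ ?_
        fun r hr => ⟨hnn _ (hmem r hr).1, (hmem r hr).2⟩
      · exact (diffAt_of_mem hΩ hus (hmem r hr).1).hasFDerivAt.comp_hasDerivAt r (hl r)
      · intro a ha c hc hac
        rcases hac.eq_or_lt with h' | h'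
        · subst h'; exact le_rfl
        have hdiff : ι (c, y) - ι (a, y) = (c - a) • D := by
          rw [hline c y, hline a y, sub_smul]; abel
        have hne : ι (a, y) ≠ ι (c, y) := fun h0 => by
          have := congrArg (fun v : V (m + 1) => v i) h0
          simp only [(hcoord a y).1, (hcoord c y).1] at this
          linarith
        have h1 := fderiv_strict_mono hu (hmem a ha).1 (hmem c hc).1 hne
        rw [hdiff, map_smul, map_smul, smul_eq_mul, smul_eq_mul] at h1
        exact (lt_of_mul_lt_mul_left h1 (by linarith)).le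
      · exact (contDiffOn_pd hΩ hus i).continuousOn.comp hιc.continuousOn fun r hr => (hmem r hr).1
    have hPi : Integrable (P.indicator fun _ => 2 * τ) (volume : Measure (Fin m → ℝ)) :=
      (integrable_indicator_iff measurableSet_Icc).2
        (integrableOn_const (C := (2 * τ : ℝ)) isCompact_Icc.measure_lt_top.ne)
    refine (integral_mono hhi.integral_prod_right hPi hkey).trans (le_of_eq ?_)
    rw [integral_indicator measurableSet_Icc, setIntegral_const, smul_eq_mul, measureReal_def,
      Real.volume_Icc_pi_toReal (fun j => by linarith [hb (i.succAbove j)]), mul_comm]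
    congr 1
    rw [show (Finset.univ : Finset (Fin (m + 1))).erase i = Finset.univ.image i.succAbove by
      ext k; simp [Fin.exists_succAbove_eq_iff], Finset.prod_image
      (fun a _ b _ h => Fin.succAbove_right_injective h)]
    exact Finset.prod_congr rfl fun j _ => by ring

end Vale.Agent.P252B
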