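import Vale.Agent.P252B.Blowdown

/-!
Normalisation and the final theorem.
-/

open Set Finset

namespace Vale.Agent.P252B

open Vale.Agent.P252 (hessian)

lemma hessian_congr {n : ℕ} {f g : V n → ℝ} {x : V n} (h : f =ᶠ[nhds x] g) :
    hessian f x = hessian g x := by
  ext i j
  simp only [hessian, Matrix.of_apply, h.fderiv.fderiv_eq]

theorem no_slab_solution (hI : HolderImageSpec) (hV : VariationSpec) (hF : GmeasFiniteSpec)
    {n : ℕ} (hn : 1 ≤ n) (Ω : Set (V n)) (u : V n → ℝ) (hu : Admissible Ω u) (ham : IsAM Ω u)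
    (hcl : IsClosed {p : V n × ℝ | p.1 ∈ Ω ∧ p.2 = u p.1}) :
    ¬ ∃ (I : Finset (Fin n)) (x₀ : V n) (C : ℝ), (∀ x ∈ Ω, ∀ i, i ∉ I → |x i| ≤ C) ∧
      ∀ x : V n, (∀ i, i ∉ I → x i = x₀ i) → x ∈ Ω ∧ u x ≤ C * (1 + ‖x‖) := by
  rintro ⟨I, x₀, C, hb, hs⟩
  obtain ⟨hΩ, hc, hus, hpd⟩ := id hu
  have h0 := hs x₀ fun _ _ => rfl
  set L := fderiv ℝ u x₀ with hL
  set u' := fun x => u x - (u x₀ + L (x - x₀)) with hu'
  have hlin : ContDiffOn ℝ (↑(⊤ : ℕ∞)) (fun x => u x₀ + L (x - x₀)) Ω :=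
    (contDiff_const.add (L.contDiff.comp (contDiff_id.sub contDiff_const))).contDiffOn
  have hs' : ContDiffOn ℝ (↑(⊤ : ℕ∞)) u' Ω := hus.sub hlin
  have hd : ∀ y ∈ Ω, HasFDerivAt u' (fderiv ℝ u y - L) y := fun y hy => by
    have h2 : HasFDerivAt (fun x => u x₀ + L (x - x₀)) L y :=
      (L.hasFDerivAt.comp y ((hasFDerivAt_id y).sub_const x₀)).const_add (u x₀)
    exact (diffAt_of_mem hΩ hus hy).hasFDerivAt.sub h2
  have hH : ∀ y ∈ Ω, hessian u' y = hessian u y := fun y hy => by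
    ext i j
    have e : fderiv ℝ u' =ᶠ[nhds y] fun z => fderiv ℝ u z - L :=
      Filter.eventuallyEq_of_mem (hΩ.mem_nhds hy) fun z hz => (hd z hz).fderiv
    simp only [hessian, Matrix.of_apply, e.fderiv_eq, fderiv_sub_const]
  have hadm : Admissible Ω u' := ⟨hΩ, hc, hs', fun x hx => (hH x hx).symm ▸ hpd x hx⟩
  have ham' : IsAM Ω u' := by
    intro x hx
    refine Eq.trans ?_ (ham x hx)
    have e : (fun y => (hessian u' y).det ^ (-(((n : ℝ) + 1) / ((n : ℝ) + 2)))) =ᶠ[nhds x]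
        fun y => (hessian u y).det ^ (-(((n : ℝ) + 1) / ((n : ℝ) + 2))) :=
      Filter.eventuallyEq_of_mem (hΩ.mem_nhds hx) fun y hy => by simp only [hH y hy]
    simp only [hH x hx, hessian_congr e]
  have hcl' : IsClosed {p : V n × ℝ | p.1 ∈ Ω ∧ p.2 = u' p.1} := by
    have e : {p : V n × ℝ | p.1 ∈ Ω ∧ p.2 = u' p.1} =
        (fun p : V n × ℝ => (p.1, p.2 + (u x₀ + L (p.1 - x₀)))) ⁻¹'
          {p : V n × ℝ | p.1 ∈ Ω ∧ p.2 = u p.1} := by
      ext p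
      simp only [Set.mem_ofPred_eq, Set.mem_preimage, hu', eq_sub_iff_add_eq]
    rw [e]
    exact hcl.preimage (by fun_prop)
  have hslice : ∀ y : V n, proj I y = y → x₀ + y ∈ Ω ∧ u (x₀ + y) ≤ C * (1 + ‖x₀ + y‖) :=
    fun y hy => hs _ fun i hi => by
      have : y i = 0 := by rw [← hy, proj_apply, if_neg hi]
      simp [this]
  set C' := |C| + |C| + |C| * ‖x₀‖ + |u x₀| + ‖L‖ + 1 with hC'
  refine Slab.impossible (P := ⟨Ω, u', hadm, ham', hcl', I, x₀, C', by positivity,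
    fun x hx i hi => ?_, fun y hy => (hslice y hy).1, fun y hy => ?_, by simp [hu'], ?_⟩) hI hV hF hn
  · have h1 := hb x hx i hi
    have h2 := hb x₀ h0.1 i hi
    have h3 := abs_sub (x i) (x₀ i)
    have := le_abs_self C
    have : 0 ≤ |C| * ‖x₀‖ + |u x₀| + ‖L‖ := by positivity
    linarith
  · have h1 := (hslice y hy).2
    have h2 : u (x₀ + y) ≤ |C| * (1 + ‖x₀‖ + ‖y‖) :=
      h1.trans (mul_le_mul (le_abs_self C) (by linarith [norm_add_le x₀ y]) (by positivity)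
        (abs_nonneg C))
    have h3 : |L y| ≤ ‖L‖ * ‖y‖ := by rw [← Real.norm_eq_abs]; exact L.le_opNorm y
    simp only [hu', add_sub_cancel_left]
    have h4 : 0 ≤ (|C| + |C| * ‖x₀‖ + |u x₀| + 1) * ‖y‖ := by positivity
    rw [hC']
    linarith [(abs_le.1 h3).1, neg_abs_le (u x₀), abs_nonneg C, norm_nonneg L]
  · rw [(hd x₀ h0.1).fderiv, sub_self]

end Vale.Agent.P252B
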