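import Vale.Agent.P252B.Convex
import Vale.Agent.P252B.Spec

/-!
A normalised solution over a slab: coercivity, bounds and slopes.
-/

open Set Finset Metric

namespace Vale.Agent.P252B

open Vale.Agent.P252 (hessian)

variable {n : ℕ}

/-- The part of a vector in the coordinates of `I`. -/
noncomputable def proj (I : Finset (Fin n)) (x : V n) : V n :=
  WithLp.toLp 2 fun i => if i ∈ I then x i else 0

lemma proj_apply (I : Finset (Fin n)) (x : V n) (i : Fin n) :
    proj I x i = if i ∈ I then x i else 0 := rfl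

lemma continuous_proj (I : Finset (Fin n)) : Continuous (proj I) := by
  unfold proj
  refine (PiLp.continuous_toLp 2 _).comp (continuous_pi fun i => ?_)
  split_ifs <;> fun_prop

lemma proj_proj (I : Finset (Fin n)) (x : V n) : proj I (proj I x) = proj I x := by
  ext i; simp only [proj_apply]; split_ifs <;> rfl

lemma proj_smul (I : Finset (Fin n)) (c : ℝ) (x : V n) : proj I (c • x) = c • proj I x := by
  ext i; simp [proj_apply]

lemma proj_add (I : Finset (Fin n)) (x y : V n) : proj I (x + y) = proj I x + proj I y := by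
  ext i; simp only [proj_apply, PiLp.add_apply]; split_ifs <;> simp

lemma proj_zero (I : Finset (Fin n)) : proj I 0 = 0 := by
  ext i; simp [proj_apply]

/-- The hypotheses after subtracting the tangent function at `x₀`. -/
structure Slab (n : ℕ) where
  Ω : Set (V n)
  u : V n → ℝ
  adm : Admissible Ω u
  am : IsAM Ω u
  closedGraph : IsClosed {p : V n × ℝ | p.1 ∈ Ω ∧ p.2 = u p.1}
  I : Finset (Fin n)
  x₀ : V n
  C : ℝ
  C_pos : 0 < C
  bdd : ∀ x ∈ Ω, ∀ i, i ∉ I → |x i - x₀ i| ≤ C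
  slice : ∀ y : V n, proj I y = y → x₀ + y ∈ Ω
  growth : ∀ y : V n, proj I y = y → u (x₀ + y) ≤ C * (1 + ‖y‖)
  val₀ : u x₀ = 0
  crit : fderiv ℝ u x₀ = 0

namespace Slab

variable (P : Slab n)

lemma mem₀ : P.x₀ ∈ P.Ω := by simpa using P.slice 0 (proj_zero _)

lemma nonneg {x : V n} (hx : x ∈ P.Ω) : 0 ≤ P.u x := by
  have := tangent_le P.adm P.mem₀ hx
  simpa [P.val₀, P.crit] using this

/-- The compact set of slice vectors of norm at most `r`. -/
def disc (r : ℝ) : Set (V n) := {y | proj P.I y = y} ∩ closedBall 0 r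

lemma isCompact_disc (r : ℝ) : IsCompact (P.disc r) :=
  (isCompact_closedBall 0 r).inter_left (isClosed_eq (continuous_proj _) continuous_id)

lemma continuousOn_fderiv : ContinuousOn (fderiv ℝ P.u) P.Ω :=
  P.adm.2.2.1.continuousOn_fderiv_of_isOpen P.adm.1 (by norm_num)

/-- Slopes at points of the slice are strictly below the growth. -/
lemma gap (Λ : ℝ) : ∃ r > 0, ∃ R ≥ 0, ∀ η ∈ P.disc Λ, ∀ x ∈ P.Ω,
    fderiv ℝ P.u (P.x₀ + η) (proj P.I (x - P.x₀)) + r * ‖proj P.I (x - P.x₀)‖ - R ≤ P.u x := by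
  set Z : Set (V n × V n) := P.disc Λ ×ˢ ({e | proj P.I e = e} ∩ sphere 0 1) with hZ
  have hZc : IsCompact Z := (P.isCompact_disc Λ).prod
    ((isCompact_sphere 0 1).inter_left (isClosed_eq (continuous_proj _) continuous_id))
  have m1 : ∀ z ∈ Z, P.x₀ + z.1 ∈ P.Ω := fun z hz => P.slice _ hz.1.1
  have m2 : ∀ z ∈ Z, P.x₀ + (z.1 + z.2) ∈ P.Ω := fun z hz =>
    P.slice _ (by rw [proj_add, hz.1.1, hz.2.1])
  set f := fun z : V n × V n =>
    fderiv ℝ P.u (P.x₀ + (z.1 + z.2)) z.2 - fderiv ℝ P.u (P.x₀ + z.1) z.2 with hf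
  have hfc : ContinuousOn f Z :=
    ((P.continuousOn_fderiv.comp (by fun_prop) m2).clm_apply (by fun_prop)).sub
      ((P.continuousOn_fderiv.comp (by fun_prop) m1).clm_apply (by fun_prop))
  have hfp : ∀ z ∈ Z, 0 < f z := by
    intro z hz
    have hne : P.x₀ + z.1 ≠ P.x₀ + (z.1 + z.2) := fun h => by
      have : z.2 = 0 := by simpa using h
      simpa [this] using hz.2.2
    have := fderiv_strict_mono P.adm (m1 z hz) (m2 z hz) hne
    rw [show P.x₀ + (z.1 + z.2) - (P.x₀ + z.1) = z.2 by abel] at this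
    simp only [hf]; linarith
  obtain ⟨r, hr, hrle⟩ : ∃ r > 0, ∀ z ∈ Z, r ≤ f z := by
    rcases Z.eq_empty_or_nonempty with h | h
    · exact ⟨1, one_pos, by simp [h]⟩
    · obtain ⟨z, hz, hmin⟩ := hZc.exists_isMinOn h hfc
      exact ⟨f z, hfp z hz, fun w hw => hmin hw⟩
  obtain ⟨B, hB⟩ := hZc.exists_bound_of_continuousOn
    (f := fun z => fderiv ℝ P.u (P.x₀ + (z.1 + z.2))) (P.continuousOn_fderiv.comp (by fun_prop) m2)
  set B' := max B 0 with hB'
  refine ⟨r, hr, B' * (|Λ| + 1 + (Finset.univ.sum fun _ : Fin n => P.C)),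
    mul_nonneg (le_max_right _ _) (by have := P.C_pos; positivity), fun η hη x hx => ?_⟩
  set y := proj P.I (x - P.x₀) with hy
  rcases eq_or_ne y 0 with h0 | h0
  · rw [h0]; simp only [map_zero, norm_zero, mul_zero, add_zero]
    have := P.nonneg hx
    have : 0 ≤ B' * (|Λ| + 1 + (Finset.univ.sum fun _ : Fin n => P.C)) :=
      mul_nonneg (le_max_right _ _) (by have := P.C_pos; positivity)
    linarith
  set e := ‖y‖⁻¹ • y with he
  have hez : (η, e) ∈ Z := by
    refine ⟨hη, ?_, by simp [he, norm_smul, h0]⟩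
    show proj P.I e = e
    rw [he, proj_smul, hy, proj_proj]
  have hy' : y = ‖y‖ • e := by simp [he, smul_smul, h0]
  set D := fderiv ℝ P.u (P.x₀ + (η + e)) with hD
  have ht := tangent_le P.adm (m2 _ hez) hx
  have hb := P.nonneg (m2 _ hez)
  have hnorm : ‖x - (P.x₀ + (η + e)) - y‖ ≤ |Λ| + 1 + (Finset.univ.sum fun _ : Fin n => P.C) := by
    have e1 : x - (P.x₀ + (η + e)) - y = ((x - P.x₀) - y) - η - e := by abel
    have h1 : ‖η‖ ≤ |Λ| := (mem_closedBall_zero_iff.1 hη.2).trans (le_abs_self Λ)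
    have h2 : ‖e‖ = 1 := by simp [he, norm_smul, h0]
    have h3 : ‖(x - P.x₀) - y‖ ≤ Finset.univ.sum fun _ : Fin n => P.C := by
      rw [vec_eq_sum ((x - P.x₀) - y)]
      refine norm_sum_le_of_le _ fun i _ => ?_
      rw [norm_smul, EuclideanSpace.single, PiLp.norm_single, norm_one, mul_one, Real.norm_eq_abs,
        PiLp.sub_apply, hy, proj_apply]
      split_ifs with h
      · simpa using P.C_pos.le
      · simpa using P.bdd x hx i h
    rw [e1]
    linarith [norm_sub_le ((x - P.x₀) - y - η) e, norm_sub_le ((x - P.x₀) - y) η]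
  have hDn : ‖D‖ ≤ B' := (hB _ hez).trans (le_max_left _ _)
  have h4 : |D (x - (P.x₀ + (η + e)) - y)| ≤
      B' * (|Λ| + 1 + (Finset.univ.sum fun _ : Fin n => P.C)) := by
    rw [← Real.norm_eq_abs]
    exact (D.le_opNorm _).trans (mul_le_mul hDn hnorm (norm_nonneg _) (le_max_right _ _))
  have hfr : fderiv ℝ P.u (P.x₀ + η) y + r * ‖y‖ ≤ D y := by
    have := mul_le_mul_of_nonneg_left (hrle _ hez) (norm_nonneg y)
    have a1 : D y = ‖y‖ * D e := by conv_lhs => rw [hy']; simp
    have a2 : fderiv ℝ P.u (P.x₀ + η) y = ‖y‖ * fderiv ℝ P.u (P.x₀ + η) e := by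
      conv_lhs => rw [hy']; simp
    simp only [hf] at this
    rw [a1, a2, hD]
    nlinarith
  rw [map_sub] at h4
  have := (abs_le.1 h4).1
  linarith

lemma coercive : ∃ c > 0, ∃ R ≥ 0, ∀ x ∈ P.Ω, c * ‖proj P.I (x - P.x₀)‖ - R ≤ P.u x := by
  obtain ⟨c, hc, R, hR, h⟩ := P.gap 0
  refine ⟨c, hc, R, hR, fun x hx => ?_⟩
  simpa [P.crit] using h 0 ⟨proj_zero _, by simp⟩ x hx

/-- The sublevel set. -/
def sub (t : ℝ) : Set (V n) := {x | x ∈ P.Ω ∧ P.u x ≤ t}

/-- Half-widths of a box containing the sublevel set. -/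
noncomputable def width (B t : ℝ) (i : Fin n) : ℝ := if i ∈ P.I then B * t else B

lemma exists_box : ∃ B > 0, ∀ t : ℝ, 1 ≤ t →
    P.sub t ⊆ box (P.width B t) ∧
      (∀ x ∈ P.sub t, ∀ i, i ∈ P.I → |x i - P.x₀ i| ≤ B * t) := by
  obtain ⟨c, hc, R, hR, h⟩ := P.coercive
  set X := ‖P.x₀‖ with hX
  have hX0 : ∀ i, |P.x₀ i| ≤ X := fun i => PiLp.norm_apply_le P.x₀ i
  have hCp := P.C_pos
  have key : ∀ t : ℝ, 1 ≤ t → ∀ x ∈ P.sub t, ∀ i, i ∈ P.I →
      |x i - P.x₀ i| ≤ (1 + R) / c * t := by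
    intro t ht x hx i hi
    have h1 := h x hx.1
    have h2 : |x i - P.x₀ i| ≤ ‖proj P.I (x - P.x₀)‖ := by
      have := PiLp.norm_apply_le (proj P.I (x - P.x₀)) i
      simpa [proj_apply, hi] using this
    rw [div_mul_eq_mul_div, le_div_iff₀ hc]
    nlinarith [hx.2]
  refine ⟨(1 + R) / c + X + P.C, by positivity, fun t ht => ⟨fun x hx i => ?_, fun x hx i hi => ?_⟩⟩
  · unfold width
    have hab : |x i| ≤ |x i - P.x₀ i| + |P.x₀ i| := by
      have := abs_add_le (x i - P.x₀ i) (P.x₀ i)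
      simpa using this
    split_ifs with hi
    · have := key t ht x hx i hi
      have : X + P.C ≤ (X + P.C) * t := le_mul_of_one_le_right (by positivity) ht
      nlinarith [hX0 i]
    · have := P.bdd x hx.1 i hi
      have : 0 ≤ (1 + R) / c := by positivity
      linarith [hX0 i]
  · refine (key t ht x hx i hi).trans ?_
    gcongr
    linarith [norm_nonneg P.x₀]

lemma isCompact_sub (t : ℝ) : IsCompact (P.sub t) := by
  obtain ⟨B, hB, hbox⟩ := P.exists_box
  have hb : Bornology.IsBounded (P.sub t) := by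
    have hs : P.sub t ⊆ P.sub (max t 1) := fun x hx => ⟨hx.1, hx.2.trans (le_max_left _ _)⟩
    refine Bornology.IsBounded.subset ?_ (hs.trans (hbox _ (le_max_right _ _)).1)
    refine (isBounded_closedBall (x := (0 : V n)) (r := ∑ i, |P.width B (max t 1) i|)).subset ?_
    intro x hx
    rw [mem_closedBall_zero_iff, vec_eq_sum x]
    refine norm_sum_le_of_le _ fun i _ => ?_
    rw [norm_smul, EuclideanSpace.single, PiLp.norm_single, norm_one, mul_one, Real.norm_eq_abs]
    exact (hx i).trans (le_abs_self _)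
  have hc := ((hb.isCompact_closure).prod (isCompact_Icc (a := (0:ℝ)) (b := t))).inter_right
    P.closedGraph
  have e : P.sub t = Prod.fst '' ((closure (P.sub t) ×ˢ Icc (0:ℝ) t) ∩
      {p : V n × ℝ | p.1 ∈ P.Ω ∧ p.2 = P.u p.1}) := by
    apply Set.Subset.antisymm
    · exact fun x hx => ⟨(x, P.u x), ⟨⟨subset_closure hx, P.nonneg hx.1, hx.2⟩, hx.1, rfl⟩, rfl⟩
    · rintro _ ⟨⟨x, y⟩, ⟨⟨-, hy⟩, hxΩ, hyu⟩, rfl⟩
      exact ⟨hxΩ, hyu ▸ hy.2⟩
  rw [e]
  exact hc.image continuous_fst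

/-- The slopes that stay below the growth along the slice. -/
def slopes : Set (V n) :=
  {q | ∃ B : ℝ, ∀ η, proj P.I η = η → ∑ i, q i * η i ≤ P.u (P.x₀ + η) + B}

lemma convex_slopes : Convex ℝ P.slopes := by
  rintro q ⟨B, hB⟩ q' ⟨B', hB'⟩ a b ha hb hab
  refine ⟨a * B + b * B', fun η hη => ?_⟩
  have e : ∑ i, (a • q + b • q') i * η i = a * ∑ i, q i * η i + b * ∑ i, q' i * η i := by
    rw [Finset.mul_sum, Finset.mul_sum, ← Finset.sum_add_distrib]
    exact Finset.sum_congr rfl fun i _ => by simp; ring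
  rw [e]
  have h1 := mul_le_mul_of_nonneg_left (hB η hη) ha
  have h2 := mul_le_mul_of_nonneg_left (hB' η hη) hb
  have h3 : a * P.u (P.x₀ + η) + b * P.u (P.x₀ + η) = P.u (P.x₀ + η) := by
    rw [← add_mul, hab, one_mul]
  linarith

/-- Slopes attained on the slice within distance `Λ`. -/
def attained (Λ : ℝ) : Set (V n) :=
  {q | ∃ η ∈ P.disc Λ, ∀ i ∈ P.I, q i = pd P.u i (P.x₀ + η)}

lemma isClosed_attained (Λ : ℝ) : IsClosed (P.attained Λ) := by
  set G := fun η : V n => proj P.I (WithLp.toLp 2 fun i => pd P.u i (P.x₀ + η)) with hG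
  have hc : ContinuousOn G (P.disc Λ) := by
    refine (continuous_proj _).comp_continuousOn ((PiLp.continuous_toLp 2 _).comp_continuousOn
      (continuousOn_pi.2 fun i => ?_))
    exact (P.continuousOn_fderiv.comp (by fun_prop) fun η hη => P.slice η hη.1).clm_apply
      continuousOn_const
  have e : P.attained Λ = proj P.I ⁻¹' (G '' P.disc Λ) := by
    ext q
    constructor
    · rintro ⟨η, hη, h⟩
      refine ⟨η, hη, ?_⟩
      ext i
      simp only [hG, proj_apply]
      split_ifs with hi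
      · exact (h i hi).symm
      · rfl
    · rintro ⟨η, hη, h⟩
      refine ⟨η, hη, fun i hi => ?_⟩
      have := congrFun (congrArg WithLp.ofLp h) i
      simpa [hG, proj_apply, hi] using this.symm
  rw [e]
  exact ((P.isCompact_disc Λ).image_of_continuousOn hc).isClosed.preimage (continuous_proj _)

lemma sum_proj (q : V n) (η : V n) :
    ∑ i, q i * proj P.I η i = ∑ i ∈ P.I, q i * η i := by
  simp [proj_apply, Finset.sum_ite_mem]

/-- Interior slopes are attained. -/
lemma interior_slopes_subset : interior P.slopes ⊆ ⋃ m : ℕ, P.attained m := by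
  intro q hq
  obtain ⟨r, hr, hball⟩ := Metric.mem_nhds_iff.1 (mem_interior_iff_mem_nhds.1 hq)
  have hq' : ∀ (i : Fin n) (σ : ℝ), |σ| ≤ 1 →
      q + (σ * (r / 2)) • EuclideanSpace.single i 1 ∈ P.slopes := fun i σ hσ => hball (by
    simp [EuclideanSpace.single, norm_smul]
    rw [abs_of_pos hr]; nlinarith)
  choose Bp hBp using fun i => hq' i 1 (by norm_num)
  choose Bm hBm using fun i => hq' i (-1) (by norm_num)
  set W := ∑ i, (|Bp i| + |Bm i|) with hW
  set f := fun η : V n => P.u (P.x₀ + η) - ∑ i, q i * η i with hf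
  have hlow : ∀ η, proj P.I η = η → ∀ i, r / 2 * |η i| ≤ f η + W := by
    intro η hη i
    have hWi : |Bp i| + |Bm i| ≤ W := Finset.single_le_sum
      (f := fun i => |Bp i| + |Bm i|) (fun j _ => by positivity) (Finset.mem_univ i)
    have h1 := hBp i η hη
    have h2 := hBm i η hη
    simp [EuclideanSpace.single, add_mul, Finset.sum_add_distrib] at h1 h2
    simp only [hf]
    rcases abs_cases (η i) with ⟨e, -⟩ | ⟨e, -⟩ <;> rw [e] <;>
      nlinarith [le_abs_self (Bp i), le_abs_self (Bm i), abs_nonneg (Bp i), abs_nonneg (Bm i)]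
  set ρ := (n : ℝ) * ((|f 0| + W + 1) * (2 / r)) with hρ
  have hρ0 : 0 ≤ ρ := by positivity
  have hfc : ContinuousOn f (P.disc ρ) :=
    ((P.adm.2.2.1.continuousOn).comp (by fun_prop) fun η hη => P.slice η hη.1).sub (by fun_prop)
  obtain ⟨η, hη, hmin⟩ := (P.isCompact_disc ρ).exists_isMinOn ⟨0, proj_zero _, by simpa⟩ hfc
  have hglob : ∀ y, proj P.I y = y → f η ≤ f y := by
    intro y hy
    by_cases hyd : ‖y‖ ≤ ρ
    · exact hmin ⟨hy, mem_closedBall_zero_iff.2 hyd⟩
    · have h0 : f η ≤ f 0 := hmin ⟨proj_zero _, by simpa⟩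
      by_contra hlt
      refine hyd ?_
      rw [vec_eq_sum y]
      refine (norm_sum_le _ _).trans ?_
      refine (Finset.sum_le_card_nsmul _ _ ((|f 0| + W + 1) * (2 / r)) fun i _ => ?_).trans
        (by simp [hρ, nsmul_eq_mul])
      rw [norm_smul, EuclideanSpace.single, PiLp.norm_single, norm_one, mul_one, Real.norm_eq_abs]
      have := hlow y hy i
      rw [mul_div, le_div_iff₀ hr]
      nlinarith [le_abs_self (f 0), not_le.1 hlt]
  refine Set.mem_iUnion.2 ⟨⌈ρ⌉₊, η, ⟨hη.1, mem_closedBall_zero_iff.2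
    ((mem_closedBall_zero_iff.1 hη.2).trans (Nat.le_ceil _))⟩, fun i hi => ?_⟩
  set e : V n := EuclideanSpace.single i 1 with he
  have hpe : ∀ s : ℝ, proj P.I (η + s • e) = η + s • e := fun s => by
    rw [proj_add, proj_smul, hη.1]
    congr 2
    ext j
    simp only [proj_apply, he]
    split_ifs with hj
    · rfl
    · have : j ≠ i := fun h => hj (h ▸ hi)
      simp [this]
  have hder : HasDerivAt (fun s : ℝ => f (η + s • e)) (pd P.u i (P.x₀ + η) - q i) 0 := by
    have hd := (diffAt_of_mem P.adm.1 P.adm.2.2.1 (P.slice η hη.1)).hasFDerivAt.hasLineDerivAt e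
    have h1 : HasDerivAt (fun s : ℝ => P.u (P.x₀ + (η + s • e))) (pd P.u i (P.x₀ + η)) 0 := by
      simp only [← add_assoc]; exact hd
    have h2 : HasDerivAt (fun s : ℝ => ∑ j, q j * (η + s • e) j) (q i) 0 := by
      have : (fun s : ℝ => ∑ j, q j * (η + s • e) j) = fun s : ℝ => (∑ j, q j * η j) + s * q i := by
        funext s
        simp [he, mul_add, Finset.sum_add_distrib, mul_comm]
      rw [this]
      simpa using ((hasDerivAt_id (0:ℝ)).mul_const (q i)).const_add (∑ j, q j * η j)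
    exact h1.sub h2
  have hloc : IsLocalMin (fun s : ℝ => f (η + s • e)) 0 :=
    Filter.Eventually.of_forall fun s => by simpa using hglob _ (hpe s)
  linarith [hloc.hasDerivAt_eq_zero hder]

/-- Every gradient restricts to a slope below the growth. -/
lemma grad_mem_slopes {x : V n} (hx : x ∈ P.Ω) (q : V n) (hq : ∀ i ∈ P.I, q i = pd P.u i x) :
    q ∈ P.slopes := by
  have hcont : ContinuousAt (fun θ : ℝ => (1 - θ)⁻¹ • (x - θ • P.x₀)) 0 := by
    refine ContinuousAt.fun_smul ?_ (by fun_prop)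
    exact ContinuousAt.inv₀ (by fun_prop) (by norm_num)
  have hev : ∀ᶠ θ in nhds (0:ℝ), (1 - θ)⁻¹ • (x - θ • P.x₀) ∈ P.Ω :=
    hcont.preimage_mem_nhds (P.adm.1.mem_nhds (by simpa using hx))
  obtain ⟨ε, hε, hball⟩ := Metric.eventually_nhds_iff.1 hev
  set θ := min (ε / 2) (1 / 2) with hθ
  have hθ0 : 0 < θ := lt_min (by linarith) (by norm_num)
  have hθ1 : θ < 1 := lt_of_le_of_lt (min_le_right _ _) (by norm_num)
  set x' := (1 - θ)⁻¹ • (x - θ • P.x₀) with hx'
  have hx'm : x' ∈ P.Ω := hball (by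
    rw [dist_zero_right, Real.norm_eq_abs, abs_of_pos hθ0]
    linarith [min_le_left (ε / 2) (1 / 2 : ℝ)])
  refine ⟨((1 - θ) * P.u x' - P.u x) / θ, fun η hη => ?_⟩
  have hcc := convex_comb_le P.adm (P.slice η hη) hx'm hθ0.le (by linarith : 0 ≤ 1 - θ) (by ring)
  have e : θ • (P.x₀ + η) + (1 - θ) • x' = x + θ • η := by
    rw [hx', smul_smul, mul_inv_cancel₀ (by linarith), one_smul, smul_add]; abel
  have hmem : x + θ • η ∈ P.Ω := e ▸ P.adm.2.1 (P.slice η hη) hx'm hθ0.le (by linarith) (by ring)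
  rw [e] at hcc
  have ht := tangent_le P.adm hx hmem
  rw [add_sub_cancel_left, map_smul, smul_eq_mul, fderiv_apply_sum] at ht
  have hs : ∑ i, q i * η i = ∑ i, η i * pd P.u i x := by
    refine Finset.sum_congr rfl fun i _ => ?_
    by_cases hi : i ∈ P.I
    · rw [hq i hi, mul_comm]
    · have : η i = 0 := by
        conv_lhs => rw [← hη, proj_apply, if_neg hi]
      simp [this]
  rw [hs, ← sub_le_iff_le_add', le_div_iff₀ hθ0]
  nlinarith

end Slab

end Vale.Agent.P252B
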