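import Vale.Agent.P252B.Defs

/-!
Derivatives of the Hessian, of its determinant and of its adjugate; linear algebra.
-/

open Set MeasureTheory Matrix Finset

namespace Vale.Agent.P252B

open scoped MatrixOrder

open Vale.Agent.P252 (hessian)

variable {n : ℕ}

lemma hasDerivAt_det {M : ℝ → Matrix (Fin n) (Fin n) ℝ} {M' : Matrix (Fin n) (Fin n) ℝ} {t : ℝ}
    (h : ∀ i j, HasDerivAt (fun s => M s i j) (M' i j) t) :
    HasDerivAt (fun s => (M s).det) (((M t).adjugate * M').trace) t := by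
  simp only [Matrix.det_apply']
  have h1 := HasDerivAt.fun_sum (u := (Finset.univ : Finset (Equiv.Perm (Fin n)))) fun σ _ =>
    (HasDerivAt.fun_finsetProd (u := (Finset.univ : Finset (Fin n)))
      (f := fun i s => M s (σ i) i) (f' := fun i => M' (σ i) i) fun i _ => h (σ i) i).const_mul
        ((Equiv.Perm.sign σ : ℤ) : ℝ)
  refine h1.congr_deriv ?_
  have h2 : ∀ k, ((M t).adjugate * M') k k = ((M t).updateCol k fun i => M' i k).det := by
    intro k
    rw [← Matrix.cramer_apply, Matrix.cramer_eq_adjugate_mulVec]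
    rfl
  simp only [Matrix.trace, Matrix.diag, h2, Matrix.det_apply']
  rw [Finset.sum_comm]
  refine Finset.sum_congr rfl fun σ _ => ?_
  rw [Finset.mul_sum]
  refine Finset.sum_congr rfl fun k _ => ?_
  congr 1
  rw [← Finset.mul_prod_erase Finset.univ (fun i => ((M t).updateCol k fun i => M' i k) (σ i) i)
    (Finset.mem_univ k), smul_eq_mul, mul_comm]
  congr 1
  · simp
  · exact Finset.prod_congr rfl fun i hi =>
      (Matrix.updateCol_ne (Finset.ne_of_mem_erase hi)).symm

lemma det_rpow_le {A B : Matrix (Fin n) (Fin n) ℝ} (hA : A.PosDef) (hB : B.PosDef) :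
    B.det ^ ((1 : ℝ) / ((n : ℝ) + 2)) ≤
      A.det ^ ((1 : ℝ) / ((n : ℝ) + 2)) * (1 + (A⁻¹ * (B - A)).trace / ((n : ℝ) + 2)) := by
  obtain ⟨Q, hQ, hAQ⟩ : ∃ Q : Matrix (Fin n) (Fin n) ℝ, IsUnit Q ∧ A = Qᵀ * Q := by
    obtain ⟨Q, hQ, h⟩ := CStarAlgebra.isStrictlyPositive_iff_eq_star_mul_self.1
      hA.isStrictlyPositive
    exact ⟨Q, hQ, by rw [h, Matrix.star_eq_conjTranspose, Matrix.conjTranspose_eq_transpose_of_trivial]⟩
  have hQd : IsUnit Q.det := (Matrix.isUnit_iff_isUnit_det Q).1 hQ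
  set X := (Q⁻¹)ᵀ * B * Q⁻¹ with hX
  have hXp : X.PosDef := by
    have := hB.conjTranspose_mul_mul_same (B := Q⁻¹) (by
      exact Matrix.mulVec_injective_of_isUnit (Matrix.isUnit_nonsing_inv_iff.2 hQ))
    simpa [Matrix.conjTranspose_eq_transpose_of_trivial] using this
  have hdet : B.det = A.det * X.det := by
    rw [hX, hAQ]
    simp only [Matrix.det_mul, Matrix.det_transpose, Matrix.det_nonsing_inv]
    have := hQd.ne_zero
    rw [Ring.inverse_eq_inv']
    field_simp
  have htr : (A⁻¹ * B).trace = X.trace := by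
    rw [hAQ, Matrix.mul_inv_rev, ← Matrix.transpose_nonsing_inv, hX, Matrix.trace_mul_cycle]
    rw [Matrix.trace_mul_comm]
    simp only [Matrix.mul_assoc]
  have htr2 : (A⁻¹ * (B - A)).trace = X.trace - n := by
    rw [Matrix.mul_sub, Matrix.trace_sub, htr, Matrix.nonsing_inv_mul _
      (isUnit_iff_ne_zero.2 hA.det_pos.ne'), Matrix.trace_one, Fintype.card_fin]
  have hN : (0:ℝ) < (n : ℝ) + 2 := by positivity
  have key : X.det ^ ((1 : ℝ) / ((n : ℝ) + 2)) ≤ (X.trace + 2) / ((n : ℝ) + 2) := by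
    rw [hXp.isHermitian.det_eq_prod_eigenvalues, hXp.isHermitian.trace_eq_sum_eigenvalues]
    simp only [RCLike.ofReal_real_eq_id, id]
    have he : ∀ i, 0 < hXp.isHermitian.eigenvalues i := hXp.eigenvalues_pos
    have h := Real.geom_mean_le_arith_mean_weighted (Finset.univ : Finset (Option (Fin n)))
      (fun o => if o = none then 2 / ((n : ℝ) + 2) else 1 / ((n : ℝ) + 2))
      (fun o => o.elim 1 hXp.isHermitian.eigenvalues)
      (fun o _ => by split_ifs <;> positivity)
      (by simp [Fintype.sum_option]; field_simp; ring)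
      (fun o _ => by cases o <;> simp [(he _).le])
    simp [Fintype.prod_option, Fintype.sum_option] at h
    rw [Real.finsetProd_rpow _ _ fun i _ => (he i).le] at h
    rw [add_div, Finset.sum_div, one_div]
    convert h using 1
    rw [add_comm]
    congr 1
    exact Finset.sum_congr rfl fun i _ => by ring
  rw [hdet, Real.mul_rpow hA.det_pos.le hXp.det_pos.le, htr2]
  refine mul_le_mul_of_nonneg_left (key.trans_eq ?_) (Real.rpow_nonneg hA.det_pos.le _)
  field_simp
  ring

variable {Ω : Set (V n)} {u : V n → ℝ}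

lemma contDiffOn_pd (hΩ : IsOpen Ω) (hu : ContDiffOn ℝ (↑(⊤ : ℕ∞)) u Ω) (i : Fin n) :
    ContDiffOn ℝ (↑(⊤ : ℕ∞)) (pd u i) Ω :=
  (hu.fderiv_of_isOpen hΩ le_rfl).clm_apply contDiffOn_const

lemma hessian_eq (hΩ : IsOpen Ω) (hu : ContDiffOn ℝ (↑(⊤ : ℕ∞)) u Ω) {x : V n} (hx : x ∈ Ω)
    (i j : Fin n) : hessian u x i j = pd (pd u j) i x := by
  have hd : DifferentiableAt ℝ (fderiv ℝ u) x :=
    (((hu.fderiv_of_isOpen (m := (↑(⊤ : ℕ∞))) hΩ le_rfl).differentiableOn (by norm_num)) x hx).differentiableAt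
      (hΩ.mem_nhds hx)
  unfold pd
  rw [fderiv_clm_apply hd (differentiableAt_const _)]
  simp [hessian]

lemma contDiffOn_hessian (hΩ : IsOpen Ω) (hu : ContDiffOn ℝ (↑(⊤ : ℕ∞)) u Ω) (i j : Fin n) :
    ContDiffOn ℝ (↑(⊤ : ℕ∞)) (fun x => hessian u x i j) Ω :=
  (contDiffOn_pd hΩ (contDiffOn_pd hΩ hu j) i).congr fun _ hx => hessian_eq hΩ hu hx i j

lemma contDiffOn_det {M : V n → Matrix (Fin n) (Fin n) ℝ}
    (h : ∀ i j, ContDiffOn ℝ (↑(⊤ : ℕ∞)) (fun x => M x i j) Ω) :
    ContDiffOn ℝ (↑(⊤ : ℕ∞)) (fun x => (M x).det) Ω := by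
  simp only [Matrix.det_apply']
  exact ContDiffOn.sum fun σ _ => contDiffOn_const.mul (contDiffOn_prod fun i _ => h (σ i) i)

lemma contDiffOn_adj (hΩ : IsOpen Ω) (hu : ContDiffOn ℝ (↑(⊤ : ℕ∞)) u Ω) (i j : Fin n) :
    ContDiffOn ℝ (↑(⊤ : ℕ∞)) (fun x => (hessian u x).adjugate i j) Ω := by
  simp only [Matrix.adjugate_apply]
  refine contDiffOn_det fun a b => ?_
  by_cases h : a = j
  · subst h; simp only [Matrix.updateRow_self]; exact contDiffOn_const
  · simp only [Matrix.updateRow_ne h]; exact contDiffOn_hessian hΩ hu a b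

/-- The third derivatives are symmetric in the outer indices. -/
lemma pd_hessian_comm (hΩ : IsOpen Ω) (hu : ContDiffOn ℝ (↑(⊤ : ℕ∞)) u Ω) {x : V n} (hx : x ∈ Ω)
    (a b c : Fin n) :
    pd (fun y => hessian u y b c) a x = pd (fun y => hessian u y a c) b x := by
  have hc := contDiffOn_pd hΩ hu c
  have e : ∀ b, (fun y => hessian u y b c) =ᶠ[nhds x] pd (pd u c) b := fun b =>
    Filter.eventuallyEq_of_mem (hΩ.mem_nhds hx) fun y hy => hessian_eq hΩ hu hy b c
  have hs : IsSymmSndFDerivAt ℝ (pd u c) x :=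
    ((hc x hx).contDiffAt (hΩ.mem_nhds hx)).isSymmSndFDerivAt (by rw [minSmoothness_of_isRCLikeNormedField]; exact ENat.LEInfty.out)
  simp only [pd, (e b).fderiv_eq, (e a).fderiv_eq]
  show pd (pd (pd u c) b) a x = pd (pd (pd u c) a) b x
  rw [← hessian_eq hΩ hc hx a b, ← hessian_eq hΩ hc hx b a]
  exact hs.eq _ _

/-- The adjugate of the Hessian is divergence free. -/
lemma piola (hΩ : IsOpen Ω) (hu : ContDiffOn ℝ (↑(⊤ : ℕ∞)) u Ω)
    (hpd : ∀ x ∈ Ω, (hessian u x).PosDef) {x : V n} (hx : x ∈ Ω) (j : Fin n) :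
    ∑ i, pd (fun y => (hessian u y).adjugate i j) i x = 0 := by
  set H := hessian u x with hH
  set D : Fin n → Matrix (Fin n) (Fin n) ℝ := fun a => Matrix.of fun b c =>
    pd (fun y => hessian u y b c) a x with hD
  set A' : Fin n → Matrix (Fin n) (Fin n) ℝ := fun a => Matrix.of fun b c =>
    pd (fun y => (hessian u y).adjugate b c) a x with hA'
  have hne : IsUnit H.det := isUnit_iff_ne_zero.2 (hpd x hx).det_pos.ne'
  have line : ∀ {f : V n → ℝ}, ContDiffOn ℝ (↑(⊤ : ℕ∞)) f Ω → ∀ a, HasDerivAt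
      (fun t : ℝ => f (x + t • EuclideanSpace.single a 1)) (pd f a x) 0 := fun hf a =>
    ((((hf.differentiableOn (by norm_num)) x hx).differentiableAt
      (hΩ.mem_nhds hx)).hasFDerivAt.hasLineDerivAt _)
  have key : ∀ a, D a * H.adjugate + H * A' a = ((H.adjugate * D a).trace) • 1 := by
    intro a
    have hd := hasDerivAt_det (M := fun t : ℝ => hessian u (x + t • EuclideanSpace.single a 1))
      (M' := D a) (t := 0) fun b c => line (contDiffOn_hessian hΩ hu b c) a
    simp only [zero_smul, add_zero, ← hH] at hd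
    ext b c
    have hm := HasDerivAt.fun_sum (u := (Finset.univ : Finset (Fin n))) fun l _ =>
      (line (contDiffOn_hessian hΩ hu b l) a).fun_mul (line (contDiffOn_adj hΩ hu l c) a)
    have he : (fun t : ℝ => ∑ l, hessian u (x + t • EuclideanSpace.single a 1) b l *
        (hessian u (x + t • EuclideanSpace.single a 1)).adjugate l c) =
        fun t : ℝ => (hessian u (x + t • EuclideanSpace.single a 1)).det *
          (1 : Matrix (Fin n) (Fin n) ℝ) b c := by
      funext t
      rw [← Matrix.mul_apply, Matrix.mul_adjugate]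
      simp
    rw [he] at hm
    have := hm.unique (hd.mul_const _)
    simpa [Matrix.add_apply, Matrix.mul_apply, Finset.sum_add_distrib, hD, hA', hH] using this
  have hA : ∀ a, A' a = ((H.adjugate * D a).trace) • H⁻¹ - H⁻¹ * (D a * H.adjugate) := by
    intro a
    have := congrArg (H⁻¹ * ·) (key a)
    simp only [Matrix.mul_add, ← Matrix.mul_assoc, Matrix.nonsing_inv_mul _ hne, Matrix.one_mul,
      Matrix.mul_smul, Matrix.mul_one] at this
    rw [← Matrix.mul_assoc, eq_sub_iff_add_eq, add_comm]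
    exact this
  have hadj : H.adjugate = H.det • H⁻¹ := by
    rw [Matrix.inv_def, smul_smul, Ring.mul_inverse_cancel _ hne, one_smul]
  show ∑ i, A' i i j = 0
  simp only [hA, hadj, Matrix.sub_apply, Matrix.smul_apply, smul_eq_mul, Finset.sum_sub_distrib,
    Matrix.smul_mul, Matrix.mul_smul, Matrix.trace_smul]
  rw [sub_eq_zero]
  simp only [Matrix.trace, Matrix.diag, Matrix.mul_apply, Finset.mul_sum, Finset.sum_mul]
  have hsym : ∀ a b c, D a b c = D b a c := fun a b c => pd_hessian_comm hΩ hu hx a b c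
  have hinv : ∀ a b, H⁻¹ a b = H⁻¹ b a := fun a b => by
    have : Hᵀ = H := by
      simpa [Matrix.conjTranspose_eq_transpose_of_trivial] using (hpd x hx).isHermitian.eq
    conv_lhs => rw [← this, ← Matrix.transpose_nonsing_inv]
    rfl
  have hD2 : ∀ a b c, D a b c = D a c b := by
    intro a b c
    have e : (fun y => hessian u y b c) =ᶠ[nhds x] fun y => hessian u y c b :=
      Filter.eventuallyEq_of_mem (hΩ.mem_nhds hx) fun y hy => by
        simpa using ((hpd y hy).isHermitian.apply c b)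
    simp only [hD, Matrix.of_apply, pd, e.fderiv_eq]
  conv_rhs => rw [Finset.sum_comm]
  conv_rhs => enter [2, b]; rw [Finset.sum_comm]
  conv_rhs => rw [Finset.sum_comm]
  refine Finset.sum_congr rfl fun i _ => ?_
  rw [Finset.sum_comm]
  refine Finset.sum_congr rfl fun b _ => Finset.sum_congr rfl fun a _ => ?_
  rw [show D a b i = D i b a from by rw [hsym a b i, hD2 b a i, hsym b i a], hinv a b]
  ring

end Vale.Agent.P252B
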